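import Vale.Agent.P101.Ultra
import Vale.Agent.P101.Commutators
import Vale.Agent.P101.DimDropDef

/-!
# P095: pointwise automorphisms of the ultrapower and of the central sequence algebra
-/

namespace Vale.Agent.P095

open VAgent.P101 Filter BoundedContinuousFunction
open scoped CStarAlgebra Topology BoundedContinuousFunction

noncomputable section

universe u

variable {A : Type u} [CStarAlgebra A] {ω : Ultrafilter ℕ}

/-- An automorphism applied to each term of a bounded sequence. -/
def seqAct (e : A ≃⋆ₐ[ℂ] A) : (ℕ →ᵇ A) →⋆ₐ[ℂ] (ℕ →ᵇ A) where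
  toFun f := ofNormedAddCommGroupDiscrete (fun n => e (f n)) ‖f‖ fun n =>
    (NonUnitalStarAlgHom.norm_apply_le e _).trans (f.norm_coe_le_norm n)
  map_one' := by ext n; exact map_one e
  map_mul' f g := by ext n; exact map_mul e (f n) (g n)
  map_zero' := by ext n; exact map_zero e
  map_add' f g := by ext n; exact map_add e (f n) (g n)
  commutes' r := by ext n; exact AlgHomClass.commutes e r
  map_star' f := by ext n; exact map_star e (f n)

theorem seqAct_apply (e : A ≃⋆ₐ[ℂ] A) (f : ℕ →ᵇ A) (n : ℕ) : seqAct e f n = e (f n) := rfl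

variable (ω) in
theorem seqAct_null (e : A ≃⋆ₐ[ℂ] A) {f : ℕ →ᵇ A} (h : f ∈ nullIdeal A ω) :
    seqAct e f ∈ nullIdeal A ω := by
  rw [mem_nullIdeal] at h ⊢
  exact squeeze_zero (fun n => norm_nonneg _) (fun n => NonUnitalStarAlgHom.norm_apply_le e _) h

variable (ω) in
/-- An automorphism of `A` acting on the ultrapower. -/
def upowAct (e : A ≃⋆ₐ[ℂ] A) : UPow A ω →⋆ₐ[ℂ] UPow A ω :=
  { Ideal.Quotient.liftₐ (nullIdeal A ω) (UPow.mkHom.comp (seqAct e)).toAlgHom fun f hf => by
      show (UPow.mk (seqAct e f) : UPow A ω) = 0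
      rw [← map_zero (UPow.mk (A := A) (ω := ω)), UPow.mk_eq_mk, sub_zero]
      exact seqAct_null ω e hf with
    map_star' := fun x => by
      obtain ⟨f, rfl⟩ := UPow.mk_surjective x
      rw [← UPow.mk_star]
      exact map_star (UPow.mkHom.comp (seqAct e)) f }

theorem upowAct_mk (e : A ≃⋆ₐ[ℂ] A) (f : ℕ →ᵇ A) :
    upowAct ω e (UPow.mk f) = UPow.mk (seqAct e f) := rfl

theorem upowAct_one (x : UPow A ω) : upowAct ω 1 x = x := by
  obtain ⟨f, rfl⟩ := UPow.mk_surjective x
  rw [upowAct_mk]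
  exact congrArg _ (BoundedContinuousFunction.ext fun n => rfl)

theorem upowAct_mul (e e' : A ≃⋆ₐ[ℂ] A) (x : UPow A ω) :
    upowAct ω (e * e') x = upowAct ω e (upowAct ω e' x) := by
  obtain ⟨f, rfl⟩ := UPow.mk_surjective x
  simp only [upowAct_mk]
  exact congrArg _ (BoundedContinuousFunction.ext fun n => rfl)

theorem upowAct_const (e : A ≃⋆ₐ[ℂ] A) (a : A) :
    upowAct ω e (UPow.const a) = UPow.const (e a) := rfl

theorem upowAct_mem (e : A ≃⋆ₐ[ℂ] A) {x : UPow A ω} (hx : x ∈ CentralSeq A ω) :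
    upowAct ω e x ∈ CentralSeq A ω := by
  rw [mem_centralSeq]
  intro a
  have h := (mem_centralSeq.1 hx (e.symm a)).map (upowAct ω e)
  rwa [upowAct_const, StarAlgEquiv.apply_symm_apply] at h

variable (ω) in
/-- An automorphism of `A` acting on the central sequence algebra. -/
def centralAct (e : A ≃⋆ₐ[ℂ] A) : CentralSeq A ω →⋆ₐ[ℂ] CentralSeq A ω where
  toFun x := ⟨upowAct ω e x, upowAct_mem e x.2⟩
  map_one' := Subtype.ext (map_one (upowAct ω e))
  map_mul' x y := Subtype.ext (map_mul (upowAct ω e) _ _)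
  map_zero' := Subtype.ext (map_zero (upowAct ω e))
  map_add' x y := Subtype.ext (map_add (upowAct ω e) _ _)
  commutes' r := Subtype.ext (AlgHomClass.commutes (upowAct ω e) r)
  map_star' x := Subtype.ext (map_star (upowAct ω e) _)

theorem coe_centralAct (e : A ≃⋆ₐ[ℂ] A) (x : CentralSeq A ω) :
    (centralAct ω e x : UPow A ω) = upowAct ω e (x : UPow A ω) := rfl

theorem centralAct_one (x : CentralSeq A ω) : centralAct ω 1 x = x :=
  Subtype.ext (upowAct_one _)

theorem centralAct_mul (e e' : A ≃⋆ₐ[ℂ] A) (x : CentralSeq A ω) :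
    centralAct ω (e * e') x = centralAct ω e (centralAct ω e' x) :=
  Subtype.ext (upowAct_mul e e' _)

section finite

variable {H : Type*} [Group H] [Fintype H] (β : H →* (A ≃⋆ₐ[ℂ] A))

/-- The group average of a bounded sequence. -/
def avgSeq (f : ℕ →ᵇ A) : ℕ →ᵇ A :=
  ((Fintype.card H : ℂ))⁻¹ • ∑ h, seqAct (β h) f

theorem seqAct_avgSeq (k : H) (f : ℕ →ᵇ A) : seqAct (β k) (avgSeq β f) = avgSeq β f := by
  have e : ∀ h, seqAct (β k) (seqAct (β h) f) = seqAct (β (k * h)) f := fun h => by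
    ext n
    simp only [seqAct_apply, map_mul]
    rfl
  rw [avgSeq, map_smul, map_sum]
  simp only [e]
  exact congrArg _ (Fintype.sum_equiv (Equiv.mulLeft k) _ (fun h => seqAct (β h) f) (fun _ => rfl))

theorem mk_avgSeq {f : ℕ →ᵇ A} {x : UPow A ω} (hf : (UPow.mk f : UPow A ω) = x)
    (hx : ∀ h, upowAct ω (β h) x = x) : (UPow.mk (avgSeq β f) : UPow A ω) = x := by
  rw [avgSeq, map_smul, map_sum]
  simp only [← upowAct_mk, hf, hx, Finset.sum_const, Finset.card_univ]
  rw [← Nat.cast_smul_eq_nsmul ℂ, smul_smul, inv_mul_cancel₀ (Nat.cast_ne_zero.2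
    Fintype.card_ne_zero), one_smul]

variable (ω) in
/-- The invariant elements of the central sequence algebra. -/
def fixedAlg : StarSubalgebra ℂ (CentralSeq A ω) where
  carrier := {x | ∀ h, centralAct ω (β h) x = x}
  mul_mem' hx hy h := by rw [map_mul, hx h, hy h]
  one_mem' h := map_one _
  add_mem' hx hy h := by rw [map_add, hx h, hy h]
  zero_mem' h := map_zero _
  algebraMap_mem' r h := AlgHomClass.commutes _ r
  star_mem' hx h := by rw [map_star, hx h]

omit [Fintype H] in
theorem mem_fixedAlg {x : CentralSeq A ω} :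
    x ∈ fixedAlg ω β ↔ ∀ h, centralAct ω (β h) x = x := Iff.rfl

instance fixedAlg_isClosed : IsClosed (fixedAlg ω β : Set (CentralSeq A ω)) := by
  have e : (fixedAlg ω β : Set (CentralSeq A ω)) = ⋂ h, {x | centralAct ω (β h) x = x} := by
    ext x; simp [mem_fixedAlg]
  rw [e]
  exact isClosed_iInter fun h => isClosed_eq (map_continuous (centralAct ω (β h))) continuous_id

instance fixedAlgCStar : CStarAlgebra (fixedAlg ω β) :=
  StarSubalgebra.cstarAlgebra (fixedAlg ω β)

end finite

end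

end Vale.Agent.P095
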