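import Vale.Agent.P101.JS.Intertwine

/-!
# P095: intertwining with almost invariant unitaries
-/

namespace Vale.Agent.P095

open Vale.Agent.P101.JS Vale.Agent.P101.JS.Intertwining Filter Topology
open scoped CStarAlgebra

noncomputable section

universe u

theorem unitary_shift {B : Type*} [CStarAlgebra B] (b : B →⋆ₐ[ℂ] B) (v u : B)
    (hv1 : star v * v = 1) (hv2 : v * star v = 1) (hu1 : star u * u = 1) (hu2 : u * star u = 1) :
    ‖v * u * b (star (v * u)) - v * b (star v)‖ = ‖u - b u‖ := by
  have bv : b (star v) ∈ unitary B := Unitary.mem_iff.2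
    ⟨by rw [← map_star, ← map_mul, star_star, hv2, map_one],
     by rw [← map_star, ← map_mul, star_star, hv1, map_one]⟩
  have bu : b (star u) ∈ unitary B := Unitary.mem_iff.2
    ⟨by rw [← map_star, ← map_mul, star_star, hu2, map_one],
     by rw [← map_star, ← map_mul, star_star, hu1, map_one]⟩
  have e : v * u * b (star (v * u)) - v * b (star v) =
      v * ((u - b u) * b (star u)) * b (star v) := by
    rw [sub_mul, ← map_mul b u, hu2, map_one, star_mul, map_mul]
    noncomm_ring
  rw [e, CStarRing.norm_mul_mem_unitary _ bv,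
    CStarRing.norm_mem_unitary_mul _ (Unitary.mem_iff.2 ⟨hv1, hv2⟩),
    CStarRing.norm_mul_mem_unitary _ bu]

/-- Intertwining: the two actions become cocycle conjugate. -/
theorem intertwine_act {A B : Type u} [CStarAlgebra A] [CStarAlgebra B]
    [TopologicalSpace.SeparableSpace A] [TopologicalSpace.SeparableSpace B]
    {G : Type*} [Group G] (e : ℕ → G) (he : Function.Surjective e)
    (α : G → A → A) (b : G → (B →⋆ₐ[ℂ] B)) (hb : ∀ g h y, b (g * h) y = b g (b h y))
    (c : A →⋆ₐ[ℂ] B) (hc : Function.Injective c) (hbc : ∀ g a, b g (c a) = c (α g a))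
    (H : ∀ (F : Finset A) (X : Finset B) (K : Finset G) (ε : ℝ), 0 < ε →
      ∃ u : B, star u * u = 1 ∧ u * star u = 1 ∧
        (∀ a ∈ F, ‖u * c a - c a * u‖ ≤ ε) ∧ (∀ g ∈ K, ‖b g u - u‖ ≤ ε) ∧
        ∀ x ∈ X, ∃ a : A, ‖star u * x * u - c a‖ ≤ ε) :
    ∃ (Φ : A ≃⋆ₐ[ℂ] B) (U : G → B), (∀ g, star (U g) * U g = 1 ∧ U g * star (U g) = 1) ∧
      (∀ g h, U (g * h) = U g * b g (U h)) ∧
      ∀ g a, Φ (α g a) = U g * b g (Φ a) * star (U g) := by
  classical
  -- the choices, given the current unitary and the finite set of elements of `A` to be kept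
  have step : ∀ (n : ℕ) (s : {v : B // star v * v = 1 ∧ v * star v = 1} × Finset A),
      ∃ t : {v : B // star v * v = 1 ∧ v * star v = 1} × Finset A,
        s.2 ⊆ t.2 ∧ (∀ j ≤ n, TopologicalSpace.denseSeq A j ∈ t.2) ∧
        (∀ a ∈ s.2, ‖t.1.1 * c a * star t.1.1 - s.1.1 * c a * star s.1.1‖ ≤ (1 / 2) ^ n) ∧
        (∀ j ≤ n, ‖t.1.1 * b (e j) (star t.1.1) - s.1.1 * b (e j) (star s.1.1)‖ ≤ (1 / 2) ^ n) ∧
        ∀ j ≤ n, ∃ a ∈ t.2,
          ‖TopologicalSpace.denseSeq B j - t.1.1 * c a * star t.1.1‖ ≤ (1 / 2) ^ n := by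
    intro n ⟨⟨v, hv1, hv2⟩, S⟩
    obtain ⟨u, hu1, hu2, hcomm, hinv, hnear⟩ := H S
      ((Finset.range (n + 1)).image fun j => star v * TopologicalSpace.denseSeq B j * v)
      ((Finset.range (n + 1)).image e) ((1 / 2) ^ n) (by positivity)
    choose g hg using hnear
    have hw1 : star (v * u) * (v * u) = 1 := by
      rw [star_mul, mul_assoc, ← mul_assoc (star v), hv1, one_mul, hu1]
    have hw2 : v * u * star (v * u) = 1 := by
      rw [star_mul, mul_assoc, ← mul_assoc u, hu2, one_mul, hv2]
    let g' : B → A := fun b => if hb : b ∈ ((Finset.range (n + 1)).image fun j =>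
      star v * TopologicalSpace.denseSeq B j * v) then g b hb else 0
    refine ⟨(⟨v * u, hw1, hw2⟩, S ∪ (Finset.range (n + 1)).image (TopologicalSpace.denseSeq A) ∪
      (Finset.range (n + 1)).image fun j => g' (star v * TopologicalSpace.denseSeq B j * v)),
      fun a ha => ?_, fun j hj => ?_, fun a ha => ?_, fun j hj => ?_, fun j hj => ?_⟩
    · exact Finset.mem_union_left _ (Finset.mem_union_left _ ha)
    · exact Finset.mem_union_left _ (Finset.mem_union_right _
        (Finset.mem_image_of_mem _ (Finset.mem_range.2 (Nat.lt_succ_of_le hj))))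
    · have e : v * u * c a * star (v * u) - v * c a * star v =
          v * ((u * c a - c a * u) * star u) * star v := by
        rw [star_mul, sub_mul, mul_sub, sub_mul, mul_assoc (c a) u (star u), hu2, mul_one]
        simp only [mul_assoc]
      dsimp only
      rw [e, norm_conj hv1 hv2,
        CStarRing.norm_mul_mem_unitary _ (Unitary.star_mem (Unitary.mem_iff.2 ⟨hu1, hu2⟩))]
      exact hcomm a ha
    · have hg : e j ∈ (Finset.range (n + 1)).image e :=
        Finset.mem_image_of_mem _ (Finset.mem_range.2 (Nat.lt_succ_of_le hj))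
      dsimp only
      rw [unitary_shift (b (e j)) v u hv1 hv2 hu1 hu2]
      exact (norm_sub_rev _ _).le.trans (hinv _ hg)
    · have hj' := Finset.mem_range.2 (Nat.lt_succ_of_le hj)
      have hm : star v * TopologicalSpace.denseSeq B j * v ∈ ((Finset.range (n + 1)).image fun j =>
          star v * TopologicalSpace.denseSeq B j * v) := Finset.mem_image_of_mem _ hj'
      refine ⟨g' (star v * TopologicalSpace.denseSeq B j * v),
        Finset.mem_union_right _ (Finset.mem_image.2 ⟨j, hj', rfl⟩), ?_⟩
      have hb := hg _ hm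
      simp only [g', dif_pos hm]
      rw [← norm_conj hw1 hw2] at hb
      refine le_trans (le_of_eq ?_) hb
      congr 1
      rw [mul_sub, sub_mul]
      congr 1
      calc TopologicalSpace.denseSeq B j
          = v * star v * TopologicalSpace.denseSeq B j * (v * star v) := by
            rw [hv2, one_mul, mul_one]
        _ = v * (u * star u) * star v * TopologicalSpace.denseSeq B j *
            (v * (u * star u) * star v) := by rw [hu2, mul_one]
        _ = v * u * (star u * (star v * TopologicalSpace.denseSeq B j * v) * u) * star (v * u) := by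
            rw [star_mul]; simp only [mul_assoc]
  choose next hsub hA hclose hU hB using step
  let s : ℕ → {v : B // star v * v = 1 ∧ v * star v = 1} × Finset A :=
    fun n => Nat.rec (⟨1, by simp, by simp⟩, ∅) (fun n t => next n t) n
  let φ : ℕ → A →⋆ₐ[ℂ] B := fun n => conjHom c (s n).1.1 (s n).1.2.1 (s n).1.2.2
  have hφ : ∀ n a, φ n a = (s n).1.1 * c a * star (s n).1.1 := fun _ _ => rfl
  have hiso : ∀ n a, ‖φ n a‖ = ‖a‖ := fun n a => by
    rw [hφ, norm_conj (s n).1.2.1 (s n).1.2.2, NonUnitalStarAlgHom.norm_map c hc]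
  have hmono : ∀ m n, m ≤ n → (s m).2 ⊆ (s n).2 := by
    intro m n h
    induction n, h using Nat.le_induction with
    | base => exact subset_rfl
    | succ k _ ih => exact ih.trans (hsub k (s k))
  -- elements that have been recorded converge quickly
  have htail : ∀ m, ∀ a ∈ (s m).2, ∀ n, m ≤ n →
      ‖φ n a - φ m a‖ ≤ 2 * (1 / 2) ^ m - 2 * (1 / 2) ^ n := by
    intro m a ha n h
    induction n, h using Nat.le_induction with
    | base => simp
    | succ k hk ih =>
      have h1 : ‖φ (k + 1) a - φ k a‖ ≤ (1 / 2) ^ k := hclose k (s k) a (hmono m k hk ha)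
      have h2 := norm_sub_le_norm_sub_add_norm_sub (φ (k + 1) a) (φ k a) (φ m a)
      rw [pow_succ]
      linarith
  have hcauchy : ∀ a, CauchySeq fun n => φ n a := by
    intro a
    rw [Metric.cauchySeq_iff']
    intro ε hε
    obtain ⟨j, hj⟩ := (TopologicalSpace.denseRange_denseSeq A).exists_dist_lt a
      (show (0 : ℝ) < ε / 4 by positivity)
    rw [dist_eq_norm] at hj
    obtain ⟨N, hN⟩ : ∃ N, (1 / 2 : ℝ) ^ N < ε / 4 := exists_pow_lt_of_lt_one (by positivity) (by norm_num)
    refine ⟨max (j + 1) N, fun n hn => ?_⟩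
    set m := max (j + 1) N with hm
    have hmem : TopologicalSpace.denseSeq A j ∈ (s m).2 :=
      hmono (j + 1) m (le_max_left _ _) (hA j (s j) j le_rfl)
    have h1 := htail m _ hmem n hn
    have h2 : (1 / 2 : ℝ) ^ m ≤ (1 / 2) ^ N :=
      pow_le_pow_of_le_one (by norm_num) (by norm_num) (le_max_right _ _)
    have h3 : (0 : ℝ) ≤ (1 / 2) ^ n := by positivity
    set b := TopologicalSpace.denseSeq A j
    have h4 : φ n a - φ m a = φ n (a - b) + (φ n b - φ m b) + φ m (b - a) := by
      rw [map_sub, map_sub]; abel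
    rw [dist_eq_norm, h4]
    have h5 : ‖φ n (a - b) + (φ n b - φ m b) + φ m (b - a)‖ ≤
        ‖φ n (a - b)‖ + ‖φ n b - φ m b‖ + ‖φ m (b - a)‖ :=
      (norm_add_le _ _).trans (by linarith [norm_add_le (φ n (a - b)) (φ n b - φ m b)])
    rw [hiso, hiso, norm_sub_rev b a] at h5
    linarith
  choose L hL using fun a => cauchySeq_tendsto_of_complete (hcauchy a)
  let Φ : A →⋆ₐ[ℂ] B :=
    { toFun := L
      map_one' := tendsto_nhds_unique (hL 1) (by simp only [map_one]; exact tendsto_const_nhds)
      map_mul' := fun a b => tendsto_nhds_unique (hL (a * b))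
        (by simpa only [map_mul] using (hL a).mul (hL b))
      map_zero' := tendsto_nhds_unique (hL 0) (by simp only [map_zero]; exact tendsto_const_nhds)
      map_add' := fun a b => tendsto_nhds_unique (hL (a + b))
        (by simpa only [map_add] using (hL a).add (hL b))
      commutes' := fun r => tendsto_nhds_unique (hL _)
        (by simp only [AlgHomClass.commutes]; exact tendsto_const_nhds)
      map_star' := fun a => tendsto_nhds_unique (hL (star a))
        (by simpa only [map_star] using (hL a).star) }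
  have hΦ : ∀ a, ‖Φ a‖ = ‖a‖ := fun a =>
    tendsto_nhds_unique (hL a).norm (by simp only [hiso]; exact tendsto_const_nhds)
  have hisoΦ : Isometry Φ := AddMonoidHomClass.isometry_of_norm Φ hΦ
  have hdense : DenseRange Φ := by
    intro b
    rw [Metric.mem_closure_iff]
    intro ε hε
    obtain ⟨j, hj⟩ := (TopologicalSpace.denseRange_denseSeq B).exists_dist_lt b
      (show (0 : ℝ) < ε / 4 by positivity)
    obtain ⟨N, hN⟩ : ∃ N, (1 / 2 : ℝ) ^ N < ε / 4 := exists_pow_lt_of_lt_one (by positivity) (by norm_num)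
    set m := max j N
    obtain ⟨a, ha, hab⟩ := hB m (s m) j (le_max_left _ _)
    have hab' : ‖TopologicalSpace.denseSeq B j - φ (m + 1) a‖ ≤ (1 / 2) ^ m := hab
    have hlim : ‖Φ a - φ (m + 1) a‖ ≤ 2 * (1 / 2) ^ (m + 1) := by
      refine le_of_tendsto ((hL a).sub_const (φ (m + 1) a)).norm ?_
      filter_upwards [eventually_ge_atTop (m + 1)] with n hn
      have h1 := htail (m + 1) a ha n hn
      have : (0 : ℝ) ≤ (1 / 2) ^ n := by positivity
      linarith
    have h2 : (1 / 2 : ℝ) ^ m ≤ (1 / 2) ^ N :=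
      pow_le_pow_of_le_one (by norm_num) (by norm_num) (le_max_right _ _)
    refine ⟨Φ a, ⟨a, rfl⟩, ?_⟩
    rw [dist_eq_norm] at hj ⊢
    rw [pow_succ] at hlim
    rw [norm_sub_rev (Φ a)] at hlim
    have h3 := norm_sub_le_norm_sub_add_norm_sub b (TopologicalSpace.denseSeq B j) (Φ a)
    have h4 := norm_sub_le_norm_sub_add_norm_sub (TopologicalSpace.denseSeq B j) (φ (m + 1) a) (Φ a)
    linarith
  have hsurj : Function.Surjective Φ := by
    rw [← Set.range_eq_univ, ← hdense.closure_range]
    exact (hisoΦ.isClosedEmbedding.isClosed_range.closure_eq).symm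
  -- the cocycle
  let w : ℕ → G → B := fun n g => (s n).1.1 * b g (star (s n).1.1)
  have hwU : ∀ n g, star (w n g) * w n g = 1 ∧ w n g * star (w n g) = 1 := by
    intro n g
    obtain ⟨h1, h2⟩ := (s n).1.2
    constructor
    · simp only [w, star_mul, ← map_star, star_star]
      rw [mul_assoc, ← mul_assoc (star (s n).1.1), h1, one_mul, ← map_mul, h2, map_one]
    · simp only [w, star_mul, ← map_star, star_star]
      rw [mul_assoc, ← mul_assoc (b g (star (s n).1.1)), ← map_mul, h1, map_one, one_mul, h2]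
  have hwc : ∀ g, CauchySeq fun n => w n g := by
    intro g
    obtain ⟨j, rfl⟩ := he g
    have h : CauchySeq fun n => w (n + j) (e j) :=
      cauchySeq_of_le_geometric (1 / 2) ((1 / 2 : ℝ) ^ j) (by norm_num) fun n => by
        rw [dist_eq_norm, norm_sub_rev, Nat.add_right_comm n 1 j, ← pow_add, Nat.add_comm j n]
        exact hU (n + j) (s (n + j)) j (by omega)
    exact (cauchySeq_shift j).1 h
  choose U hUlim using fun g => cauchySeq_tendsto_of_complete (hwc g)
  refine ⟨StarAlgEquiv.ofBijective Φ ⟨hisoΦ.injective, hsurj⟩, U, fun g => ⟨?_, ?_⟩,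
    fun g h => ?_, fun g a => ?_⟩
  · exact tendsto_nhds_unique (((hUlim g).star).mul (hUlim g))
      (by simp only [(hwU _ g).1]; exact tendsto_const_nhds)
  · exact tendsto_nhds_unique ((hUlim g).mul (hUlim g).star)
      (by simp only [(hwU _ g).2]; exact tendsto_const_nhds)
  · refine tendsto_nhds_unique (hUlim (g * h))
      (((hUlim g).mul (((map_continuous (b g)).tendsto _).comp (hUlim h))).congr fun n => ?_)
    obtain ⟨h1, h2⟩ := (s n).1.2
    simp only [w, Function.comp_apply, map_mul, hb, mul_assoc]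
    rw [← mul_assoc (b g (star (s n).1.1)), ← map_mul, h1, map_one, one_mul]
  · refine tendsto_nhds_unique (hL (α g a))
      ((((hUlim g).mul (((map_continuous (b g)).tendsto _).comp (hL a))).mul (hUlim g).star).congr
        fun n => ?_)
    obtain ⟨h1, h2⟩ := (s n).1.2
    simp only [w, Function.comp_apply, hφ, map_mul, hbc, star_mul, mul_assoc]
    simp only [← map_star, star_star]
    rw [← mul_assoc (b g (star (s n).1.1)), ← map_mul, h1, map_one, one_mul,
      ← mul_assoc (b g (star (s n).1.1)) (b g (s n).1.1), ← map_mul, h1, map_one, one_mul]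

end

end Vale.Agent.P095
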