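import Vale.Agent.P095.Act
import Vale.Agent.P101.Coord

/-!
# P095: reindexed copies with invariant lifts
-/

namespace Vale.Agent.P095

open VAgent.P101 Filter BoundedContinuousFunction
open scoped ComplexOrder CStarAlgebra Topology BoundedContinuousFunction

noncomputable section

universe u

variable {A : Type u} [CStarAlgebra A] [Nontrivial A] [TopologicalSpace.SeparableSpace A]
  {ω : Ultrafilter ℕ}

/-- Reindexing given lifts gives a copy commuting with a finite set. -/
theorem exists_reindex (hω : (ω : Filter ℕ) ≤ cofinite) (T S : Finset (CentralSeq A ω))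
    (lift : CentralSeq A ω → ℕ →ᵇ A)
    (hlift : ∀ x, (UPow.mk (lift x) : UPow A ω) = (x : UPow A ω)) :
    ∃ (σ : ℕ → ℕ) (φ : GenAlg T →⋆ₐ[ℂ] CentralSeq A ω), (∀ z ∈ S, ∀ x, Commute z (φ x)) ∧
      ∀ t (ht : t ∈ T), ((φ ⟨t, mem_genAlg ht⟩ : CentralSeq A ω) : UPow A ω) =
        UPow.mk ((lift t).compContinuous ⟨σ, continuous_of_discreteTopology⟩) := by
  classical
  let 𝓛 := StarAlgebra.adjoin ℂ (T.image lift : Set (ℕ →ᵇ A))
  obtain ⟨D, hD, hcl⟩ := isSeparable_adjoin_finset (T.image lift)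
  obtain ⟨d, hd⟩ := (hD.insert (0 : ℕ →ᵇ A)).exists_eq_range (Set.insert_nonempty _ _)
  let a := TopologicalSpace.denseSeq A
  -- the conditions at stage `n`
  let W : ℕ → Finset A := fun n =>
    (Finset.range (n + 1)).image a ∪ (Finset.range (n + 1)).image (fun i => star (a i)) ∪
      S.image (fun s => lift s n) ∪ S.image (fun s => star (lift s n))
  let P : ℕ → ℕ → Prop := fun n k =>
    (∀ t ∈ T, ∀ w ∈ S.image (fun s => lift s n) ∪ S.image (fun s => star (lift s n)),
      ‖lift t k * w - w * lift t k‖ ≤ 1 / (n + 1)) ∧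
    (∀ t ∈ T, ∀ i ∈ Finset.range (n + 1),
      ‖lift t k * a i - a i * lift t k‖ ≤ 1 / (n + 1) ∧
      ‖lift t k * star (a i) - star (a i) * lift t k‖ ≤ 1 / (n + 1)) ∧
    ∀ i ∈ Finset.range (n + 1), ‖d i k‖ ≤ ‖(UPow.mk (d i) : UPow A ω)‖ + 1 / (n + 1)
  have hcomm : ∀ (t : CentralSeq A ω) (w : A) (δ : ℝ), 0 < δ →
      ∀ᶠ k in (ω : Filter ℕ), ‖lift t k * w - w * lift t k‖ ≤ δ := by
    intro t w δ hδ
    have h := (mem_centralSeq.1 t.2 w).eq
    rw [UPow.const, ← hlift t, ← map_mul, ← map_mul] at h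
    have h0 : (UPow.mk (lift t * BoundedContinuousFunction.const ℕ w -
        BoundedContinuousFunction.const ℕ w * lift t) : UPow A ω) = 0 := by
      rw [map_sub, h, sub_self]
    filter_upwards [UPow.eventually_of_norm_lt (ω := ω) (r := δ) (by rw [h0, norm_zero]; exact hδ)]
      with k hk
    exact le_of_lt (by simpa using hk)
  have hP : ∀ n, ∃ k, P n k := by
    intro n
    have hδ : (0 : ℝ) < 1 / (n + 1) := by positivity
    refine (Eventually.and ?_ (Eventually.and ?_ ?_)).exists (f := (ω : Filter ℕ))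
    · exact (eventually_all_finset T).2 fun t _ =>
        (eventually_all_finset _).2 fun w _ => hcomm t w _ hδ
    · exact (eventually_all_finset T).2 fun t _ =>
        (eventually_all_finset _).2 fun i _ => (hcomm t _ _ hδ).and (hcomm t _ _ hδ)
    · exact (eventually_all_finset _).2 fun i _ =>
        (UPow.eventually_of_norm_lt (lt_add_of_pos_right _ hδ)).mono fun k hk => hk.le
  choose σ hσ using hP
  let re : (ℕ →ᵇ A) →⋆ₐ[ℂ] UPow A ω :=
    UPow.mkHom.comp
      { toFun := fun f => f.compContinuous ⟨σ, continuous_of_discreteTopology⟩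
        map_one' := rfl
        map_mul' := fun _ _ => rfl
        map_zero' := rfl
        map_add' := fun _ _ => rfl
        commutes' := fun _ => rfl
        map_star' := fun _ => rfl }
  have hre : ∀ f, re f = UPow.mk (f.compContinuous ⟨σ, continuous_of_discreteTopology⟩) :=
    fun f => rfl
  have htop : (ω : Filter ℕ) ≤ atTop := Nat.cofinite_eq_atTop ▸ hω
  have hsmall : ∀ δ : ℝ, 0 < δ → ∀ᶠ n : ℕ in (ω : Filter ℕ), 1 / ((n : ℝ) + 1) < δ :=
    fun δ hδ => htop (tendsto_one_div_add_atTop_nhds_zero_nat.eventually_lt_const hδ)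
  have hnorm : ∀ f ∈ 𝓛, ‖re f‖ ≤ ‖(UPow.mk f : UPow A ω)‖ := by
    intro f hf
    have hclosed : IsClosed {g : ℕ →ᵇ A | ‖re g‖ ≤ ‖(UPow.mk g : UPow A ω)‖} :=
      isClosed_le (map_continuous re).norm UPow.continuous_mk.norm
    refine (closure_minimal ?_ hclosed) (hcl hf)
    intro g hg
    obtain ⟨i, rfl⟩ : g ∈ Set.range d := hd ▸ Set.mem_insert_of_mem _ hg
    change ‖re (d i)‖ ≤ ‖(UPow.mk (d i) : UPow A ω)‖
    refine le_of_forall_pos_le_add fun δ hδ => ?_
    rw [hre]
    refine UPow.norm_le_of_eventually (by positivity) ?_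
    filter_upwards [hsmall δ hδ, htop (eventually_ge_atTop i)] with n hn hin
    linarith [(hσ n).2.2 i (Finset.mem_range.2 (by omega)), show ‖(d i).compContinuous ⟨σ, continuous_of_discreteTopology⟩ n‖ = ‖d i (σ n)‖ from rfl]
  have hcom : ∀ t ∈ T, ∀ g : ℕ →ᵇ A,
      (∀ δ : ℝ, 0 < δ → ∀ᶠ n in (ω : Filter ℕ), ‖lift t (σ n) * g n - g n * lift t (σ n)‖ ≤ δ) →
      Commute (UPow.mk g : UPow A ω) (re (lift t)) := by
    intro t _ g h
    refine (sub_eq_zero.1 (norm_le_zero_iff.1 (le_of_forall_pos_le_add fun δ hδ => ?_))).symm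
    rw [zero_add, hre, ← map_mul, ← map_mul, ← map_sub]
    exact UPow.norm_le_of_eventually hδ.le ((h δ hδ).mono fun n hn => by simpa using hn)
  have hA : ∀ t ∈ T, ∀ b : A, Commute (UPow.const b : UPow A ω) (re (lift t)) := by
    intro t ht b
    have hclosed : IsClosed {b : A | Commute (UPow.const b : UPow A ω) (re (lift t))} :=
      isClosed_eq (Continuous.mul (UPow.continuous_const' (A := A) (ω := ω)) continuous_const)
        (Continuous.mul continuous_const (UPow.continuous_const' (A := A) (ω := ω)))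
    refine closure_minimal ?_ hclosed (TopologicalSpace.denseRange_denseSeq A b)
    rintro _ ⟨i, rfl⟩
    refine hcom t ht _ fun δ hδ => ?_
    filter_upwards [hsmall δ hδ, htop (eventually_ge_atTop i)] with n hn hin
    exact le_trans (((hσ n).2.1 t ht i (Finset.mem_range.2 (by omega))).1) hn.le
  -- the graph
  let pair : (ℕ →ᵇ A) →⋆ₐ[ℂ] UPow A ω × UPow A ω := UPow.mkHom.prod re
  let G : StarSubalgebra ℂ (UPow A ω × UPow A ω) := (𝓛.map pair).topologicalClosure
  have hGc : IsClosed (G : Set (UPow A ω × UPow A ω)) :=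
    StarSubalgebra.isClosed_topologicalClosure _
  have hGle : ∀ p ∈ G, ‖p.2‖ ≤ ‖p.1‖ := by
    intro p hp
    refine closure_minimal ?_ (isClosed_le continuous_snd.norm continuous_fst.norm) hp
    rintro _ ⟨f, hf, rfl⟩
    exact hnorm f hf
  have huniq : ∀ p ∈ G, ∀ p' ∈ G, p.1 = p'.1 → p.2 = p'.2 := by
    intro p hp p' hp' h
    have h1 := hGle _ (sub_mem hp hp')
    rw [Prod.fst_sub, h, sub_self, norm_zero] at h1
    exact sub_eq_zero.1 (norm_le_zero_iff.1 h1)
  letI : CStarAlgebra G := StarSubalgebra.cstarAlgebra G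
  let pr : G →⋆ₐ[ℂ] UPow A ω := (StarAlgHom.fst ℂ _ _).comp G.subtype
  have hpr : Function.Injective pr := fun p p' h =>
    Subtype.ext (Prod.ext h (huniq _ p.2 _ p'.2 h))
  have hrange : IsClosed (Set.range pr) :=
    (NonUnitalStarAlgHom.isometry pr hpr).isClosedEmbedding.isClosed_range
  have hgen : ∀ t ∈ T, ((t : UPow A ω), re (lift t)) ∈ G := by
    intro t ht
    refine StarSubalgebra.le_topologicalClosure _ ⟨lift t,
      StarAlgebra.subset_adjoin ℂ _ (Finset.mem_image_of_mem lift ht), ?_⟩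
    exact Prod.ext (hlift t) rfl
  have hex : ∀ x : GenAlg T, ∃ p ∈ G, p.1 = ((x : CentralSeq A ω) : UPow A ω) := by
    let K : StarSubalgebra ℂ (CentralSeq A ω) :=
      (StarAlgHom.range pr).comap (CentralSeq A ω).subtype
    have hKc : IsClosed (K : Set (CentralSeq A ω)) := by
      exact hrange.preimage (continuous_subtype_val : Continuous (Subtype.val : CentralSeq A ω → UPow A ω))
    have hle : GenAlg T ≤ K := by
      refine StarSubalgebra.topologicalClosure_minimal (StarAlgebra.adjoin_le fun t ht => ?_) hKc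
      exact ⟨⟨_, hgen t ht⟩, rfl⟩
    intro x
    obtain ⟨⟨p, hp⟩, hpx⟩ := hle x.2
    exact ⟨p, hp, hpx⟩
  choose ψ hψG hψ using hex
  -- everything in the second coordinate commutes with `A` and `S`
  have hcent : ∀ g : UPow A ω, (∀ t ∈ T, Commute g (re (lift t))) →
      (∀ t ∈ T, Commute (star g) (re (lift t))) → ∀ p ∈ G, Commute g p.2 := by
    intro g hg hg' p hp
    refine closure_minimal ?_ (isClosed_eq (continuous_const.mul continuous_snd)
      (continuous_snd.mul continuous_const)) hp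
    rintro _ ⟨f, hf, rfl⟩
    have hle : 𝓛 ≤ (StarSubalgebra.centralizer ℂ ({g} : Set (UPow A ω))).comap re := by
      refine StarAlgebra.adjoin_le fun f hf => ?_
      obtain ⟨t, ht, rfl⟩ := Finset.mem_image.1 hf
      rw [SetLike.mem_coe, StarSubalgebra.mem_comap, StarSubalgebra.mem_centralizer_iff]
      rintro _ rfl
      exact ⟨(hg t ht).eq, (hg' t ht).eq⟩
    exact (StarSubalgebra.mem_centralizer_iff ℂ).1 (hle hf) g rfl |>.1
  have hmem : ∀ x : GenAlg T, (ψ x).2 ∈ CentralSeq A ω := fun x => mem_centralSeq.2 fun b =>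
    hcent _ (fun t ht => hA t ht b) (fun t ht => by rw [← UPow.const_star]; exact hA t ht _) _
      (hψG x)
  have huni : ∀ (x : GenAlg T) p, p ∈ G → p.1 = ((x : CentralSeq A ω) : UPow A ω) → (ψ x).2 = p.2 :=
    fun x p hp h => huniq _ (hψG x) _ hp ((hψ x).trans h.symm)
  refine ⟨σ, {
    toFun := fun x => ⟨(ψ x).2, hmem x⟩
    map_one' := Subtype.ext (huni 1 1 (one_mem G) rfl)
    map_mul' := fun x y => Subtype.ext (huni (x * y) _ (mul_mem (hψG x) (hψG y))
      (by rw [Prod.fst_mul, hψ, hψ]; rfl))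
    map_zero' := Subtype.ext (huni 0 0 (zero_mem G) rfl)
    map_add' := fun x y => Subtype.ext (huni (x + y) _ (add_mem (hψG x) (hψG y))
      (by rw [Prod.fst_add, hψ, hψ]; rfl))
    commutes' := fun r => Subtype.ext (huni (algebraMap ℂ (GenAlg T) r) (algebraMap ℂ _ r) (G.algebraMap_mem r) rfl)
    map_star' := fun x => Subtype.ext (huni (star x) _ (star_mem (hψG x))
      (by rw [Prod.fst_star, hψ]; rfl)) }, fun z hz x => Subtype.ext ?_,
    fun t ht => huni ⟨t, mem_genAlg ht⟩ _ (hgen t ht) rfl⟩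
  have hz' : ∀ t ∈ T, Commute ((z : UPow A ω)) (re (lift t)) ∧
      Commute (star (z : UPow A ω)) (re (lift t)) := by
    intro t ht
    rw [← hlift z, ← UPow.mk_star]
    constructor <;> refine hcom t ht _ fun δ hδ => ?_
    · filter_upwards [hsmall δ hδ] with n hn
      exact le_trans ((hσ n).1 t ht _ (Finset.mem_union_left _
        (Finset.mem_image_of_mem (fun s => lift s n) hz))) hn.le
    · filter_upwards [hsmall δ hδ] with n hn
      exact le_trans ((hσ n).1 t ht _ (Finset.mem_union_right _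
        (Finset.mem_image_of_mem (fun s => star (lift s n)) hz))) hn.le
  exact (hcent _ (fun t ht => (hz' t ht).1) (fun t ht => (hz' t ht).2) _ (hψG x)).eq

section finite

variable {H : Type*} [Group H] [Fintype H] (β : H →* (A ≃⋆ₐ[ℂ] A))

omit [Nontrivial A] [TopologicalSpace.SeparableSpace A] in
theorem agree_on_genAlg {B : Type*} [CStarAlgebra B] {F : Type*} [CStarAlgebra F] {T : Finset F}
    (φ ψ : GenAlg T →⋆ₐ[ℂ] B)
    (h : ∀ t (ht : t ∈ T), φ ⟨t, mem_genAlg ht⟩ = ψ ⟨t, mem_genAlg ht⟩) : φ = ψ := by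
  refine StarAlgHom.ext_topologicalClosure (map_continuous φ) (map_continuous ψ) ?_
  exact StarAlgHom.ext_adjoin fun t ht => h t.1 ht

/-- The invariant elements have copies inside the invariant elements. -/
theorem hasCopies_fixed (hω : (ω : Filter ℕ) ≤ cofinite) : HasCopies (fixedAlg ω β) := by
  intro T S
  classical
  let E := CentralSeq A ω
  choose sec hsec using fun x : E => UPow.mk_surjective (x : UPow A ω)
  let lift : E → ℕ →ᵇ A := fun x => if x ∈ fixedAlg ω β then avgSeq β (sec x) else sec x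
  have hlift : ∀ x, (UPow.mk (lift x) : UPow A ω) = (x : UPow A ω) := by
    intro x
    by_cases hx : x ∈ fixedAlg ω β
    · simp only [lift, if_pos hx]
      exact mk_avgSeq β (hsec x) fun h => congrArg Subtype.val (mem_fixedAlg β |>.1 hx h)
    · simp only [lift, if_neg hx]
      exact hsec x
  let T' : Finset E := T.image Subtype.val
  obtain ⟨σ, φ, hφS, hφT⟩ := exists_reindex hω T' (S.image Subtype.val) lift hlift
  have hinv : ∀ h, (centralAct ω (β h)).comp φ = φ := by
    intro h
    refine agree_on_genAlg _ _ fun t ht => Subtype.ext ?_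
    rw [StarAlgHom.comp_apply, coe_centralAct, hφT t ht, upowAct_mk]
    obtain ⟨s, -, rfl⟩ := Finset.mem_image.1 ht
    refine congrArg _ (BoundedContinuousFunction.ext fun n => ?_)
    show β h (lift (s : E) (σ n)) = lift (s : E) (σ n)
    simp only [lift, if_pos s.2]
    exact congrArg (fun f : ℕ →ᵇ A => f (σ n)) (seqAct_avgSeq β h (sec (s : E)))
  have hle : GenAlg T ≤ (GenAlg T').comap (fixedAlg ω β).subtype :=
    StarSubalgebra.topologicalClosure_minimal
      (StarAlgebra.adjoin_le fun t ht => mem_genAlg (Finset.mem_image_of_mem _ ht))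
      ((genAlg_isClosed T').preimage continuous_subtype_val)
  let j : GenAlg T →⋆ₐ[ℂ] GenAlg T' :=
    StarAlgHom.codRestrict ((fixedAlg ω β).subtype.comp (GenAlg T).subtype) (GenAlg T')
      fun x => hle x.2
  refine ⟨StarAlgHom.codRestrict (φ.comp j) (fixedAlg ω β)
    fun x h => DFunLike.congr_fun (hinv h) (j x), fun z hz x => Subtype.ext ?_⟩
  exact (hφS _ (Finset.mem_image_of_mem _ hz) (j x)).eq

/-- Without characters the invariant elements receive every dimension drop algebra. -/
theorem exists_dimDrop_fixed (hω : (ω : Filter ℕ) ≤ cofinite)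
    (hno : IsEmpty (fixedAlg ω β →⋆ₐ[ℂ] ℂ)) (n : ℕ) [NeZero n] :
    Nonempty (Vale.Agent.P101.DimDrop n →⋆ₐ[ℂ] fixedAlg ω β) := by
  haveI : Nontrivial (fixedAlg ω β) :=
    ⟨⟨1, 0, fun e => one_ne_zero (α := CentralSeq A ω) (congrArg Subtype.val e)⟩⟩
  letI : PartialOrder (fixedAlg ω β) := CStarAlgebra.spectralOrder (fixedAlg ω β)
  haveI : StarOrderedRing (fixedAlg ω β) := CStarAlgebra.spectralOrderedRing (fixedAlg ω β)
  refine exists_dimDrop (hasCopies_fixed β hω) (fun χ => ?_) n
  have h : χ 1 * χ 1 = χ 1 := by rw [← map_mul, one_mul]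
  rcases (show χ 1 = 1 ∨ χ 1 = 0 from by
    rcases eq_or_ne (χ 1) 0 with h0 | h0
    · exact Or.inr h0
    · exact Or.inl (mul_right_cancel₀ h0 (h.trans (one_mul _).symm))) with h1 | h0
  · exact (hno.false
      { toFun := χ
        map_one' := h1
        map_mul' := map_mul χ
        map_zero' := map_zero χ
        map_add' := map_add χ
        commutes' := fun r => by
          rw [Algebra.algebraMap_eq_smul_one, map_smul χ, h1]
          simp
        map_star' := map_star χ }).elim
  · refine DFunLike.ext _ _ fun x => ?_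
    rw [← mul_one x, map_mul χ, h0, mul_zero]
    simp

/-- Copies of a character free algebra whose translates commute. -/
theorem exists_iota (hω : (ω : Filter ℕ) ≤ cofinite)
    (hchar : Vale.Agent.P101.NoCharacters (CentralSeq A ω)) :
    ∃ (T : Finset (CentralSeq A ω)) (ι : ℕ → (GenAlg T →⋆ₐ[ℂ] CentralSeq A ω)),
      IsEmpty (GenAlg T →⋆ₐ[ℂ] ℂ) ∧ ∀ i j, i ≠ j → ∀ g h a b,
        Commute (centralAct ω (β g) (ι i a)) (centralAct ω (β h) (ι j b)) := by
  classical
  let E := CentralSeq A ω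
  obtain ⟨w, g, -, hfull⟩ := exists_commFull (F := E) hchar
  obtain ⟨n, p, q, e, he, hsum⟩ := FullSet.exists_sum hfull
  choose k hk using he
  let T : Finset E := Finset.univ.image p ∪ Finset.univ.image q ∪ Finset.univ.image g ∪
    Finset.univ.image (fun i => (k i).2)
  have hT : (∀ i, p i ∈ GenAlg T) ∧ (∀ i, q i ∈ GenAlg T) ∧ (∀ j, g j ∈ GenAlg T) ∧
      ∀ i, (k i).2 ∈ GenAlg T :=
    ⟨fun i => mem_genAlg (by simp [T]), fun i => mem_genAlg (by simp [T]),
      fun i => mem_genAlg (by simp [T]), fun i => mem_genAlg (by simp [T])⟩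
  have hno : IsEmpty (GenAlg T →⋆ₐ[ℂ] ℂ) := by
    refine ⟨fun χ => ?_⟩
    have h1 : (∑ i, (⟨p i, hT.1 i⟩ : GenAlg T) *
        VAgent.P101.comm (⟨g (k i).1, hT.2.2.1 _⟩ : GenAlg T) ⟨(k i).2, hT.2.2.2 i⟩ *
        ⟨q i, hT.2.1 i⟩) = 1 := by
      apply Subtype.ext
      rw [AddSubmonoidClass.coe_finsetSum]
      refine Eq.trans (Finset.sum_congr rfl fun i _ => ?_) hsum
      rw [← hk i]
      rfl
    have h2 := congrArg χ h1
    rw [map_sum, map_one] at h2
    rw [Finset.sum_eq_zero fun i _ => ?_] at h2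
    · exact zero_ne_one h2
    · rw [map_mul, map_mul, VAgent.P101.comm, map_sub, map_mul, map_mul,
        mul_comm (χ ⟨(k i).2, hT.2.2.2 i⟩), sub_self, mul_zero, zero_mul]
  choose next hnext using fun S : Finset E => hasCopies (A := A) hω T S
  let extra : (GenAlg T →⋆ₐ[ℂ] E) → Finset E := fun φ =>
    Finset.univ.biUnion fun h : H => T.attach.biUnion fun t =>
      {centralAct ω (β h) (φ ⟨t.1, mem_genAlg t.2⟩),
        centralAct ω (β h) (φ (star ⟨t.1, mem_genAlg t.2⟩))}
  let S : ℕ → Finset E := fun m => Nat.rec ∅ (fun _ s => s ∪ extra (next s)) m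
  have hS : ∀ i j, i < j → extra (next (S i)) ⊆ S j := by
    intro i j hij
    induction j, hij using Nat.le_induction with
    | base => exact Finset.subset_union_right
    | succ m _ ih => exact ih.trans Finset.subset_union_left
  have key : ∀ i j, i < j → ∀ h a b,
      Commute (centralAct ω (β h) (next (S i) a)) (next (S j) b) := by
    intro i j hij h a b
    have hmem : ∀ t (ht : t ∈ T), ∀ z ∈ ({centralAct ω (β h) (next (S i) ⟨t, mem_genAlg ht⟩),
        centralAct ω (β h) (next (S i) (star ⟨t, mem_genAlg ht⟩))} : Finset E), z ∈ S j :=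
      fun t ht z hz => hS i j hij (Finset.mem_biUnion.2 ⟨h, Finset.mem_univ _,
        Finset.mem_biUnion.2 ⟨⟨t, ht⟩, Finset.mem_attach _ _, hz⟩⟩)
    exact (commute_of_gens ((centralAct ω (β h)).comp (next (S i))) (next (S j) b)
      (fun t ht => ⟨(hnext _ _ (hmem t ht _ (by simp)) b).symm,
        (hnext _ _ (hmem t ht _ (by simp)) b).symm⟩) a).symm
  refine ⟨T, fun i => next (S i), hno, ?_⟩
  have shift : ∀ i j, i < j → ∀ g h a b,
      Commute (centralAct ω (β g) (next (S i) a)) (centralAct ω (β h) (next (S j) b)) := by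
    intro i j hij g h a b
    have h1 := (key i j hij (h⁻¹ * g) a b).map (centralAct ω (β h))
    rwa [← centralAct_mul, ← map_mul, mul_inv_cancel_left] at h1
  intro i j hij g h a b
  rcases lt_or_gt_of_ne hij with hlt | hlt
  · exact shift i j hlt g h a b
  · exact (shift j i hlt h g b a).symm

end finite

end

end Vale.Agent.P095
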