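import Vale.Agent.P101.JS.Lift
import Vale.Agent.P095.Act

/-!
# P095: lifting invariant unitaries to almost invariant unitaries
-/

namespace Vale.Agent.P095

open VAgent.P101 Vale.Agent.P101.JS Filter BoundedContinuousFunction
open scoped ComplexOrder CStarAlgebra Topology BoundedContinuousFunction

noncomputable section

set_option linter.unusedSectionVars false

universe u

/-- Good node values give a good unitary path. -/
theorem exists_unitary_path_inv {A : Type u} [CStarAlgebra A] [PartialOrder A] [StarOrderedRing A]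
    {ι : Type*} (μ : ι → A →⋆ₐ[ℂ] A) {p q m : ℕ} (hm : 0 < m) (Lv : Fin (m + 1) → CStarMatrix (Ix p q) (Ix p q) A)
    (F : Finset A) (G : Finset (Blk A p q)) (bv : Blk A p q → A) {η ε δ C CF : ℝ}
    (hδ : 0 < δ) (hδ1 : δ ≤ 1 / 100) (hε : 0 < ε) (hδε : δ * (100 * (C + CF + 1)) ≤ ε)
    (hC0 : 0 ≤ C) (hCF0 : 0 ≤ CF) (hη0 : ∀ X ∈ G, 0 ≤ η)
    (hC : ∀ X ∈ G, ‖(X : MPath A (Ix p q))‖ ≤ C) (hCF : ∀ a ∈ F, ‖dg A (Ix p q) a‖ ≤ CF)
    (hl : IsLeft (Lv 0)) (hr : IsRight (Lv (Fin.last m)))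
    (hXc : ∀ X ∈ G, ∀ s t : unitInterval, dist s t < 2 / m →
        ‖(X : MPath A (Ix p q)) s - (X : MPath A (Ix p q)) t‖ ≤ δ)
    (hn1 : ∀ k, ‖Lv k‖ ≤ 1 + δ ∧ ‖star (Lv k) * Lv k - 1‖ ≤ δ ∧ ‖Lv k * star (Lv k) - 1‖ ≤ δ)
    (hn2 : ∀ k j, dist (node m k) (node m j) < 2 / m → ‖Lv k - Lv j‖ ≤ 2 * δ)
    (hn3 : ∀ k, ∀ a ∈ F, ‖Lv k * dg A (Ix p q) a - dg A (Ix p q) a * Lv k‖ ≤ δ)
    (hn5 : ∀ i k, mapM (Ix p q) (μ i) (Lv k) = Lv k)
    (hn4 : ∀ k, ∀ X ∈ G, ‖star (Lv k) * (X : MPath A (Ix p q)) (node m k) * Lv k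
        - dg A (Ix p q) (bv X)‖ ≤ η + δ) :
    ∃ u : Blk A p q, star u * u = 1 ∧ u * star u = 1 ∧
      (∀ a ∈ F, ‖u * const A p q a - const A p q a * u‖ ≤ ε) ∧
      (∀ i, ‖mapBlk p q (μ i) u - u‖ ≤ ε) ∧
      ∀ X ∈ G, ∃ b : A, ‖star u * X * u - const A p q b‖ ≤ η + ε := by
  -- the interpolated path
  let W : Blk A p q := ⟨interp m Lv, by
    constructor
    · rw [interp_zero]; exact hl
    · rw [interp_one]; exact hr⟩
  have hWt : ∀ t, ∃ j, dist t (node m j) < 1 / m ∧
      ‖(W : MPath A (Ix p q)) t - Lv j‖ ≤ 2 * δ := by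
    intro t
    obtain ⟨j, hj⟩ := exists_active m t
    refine ⟨j, dist_node hm hj, norm_hat_sum_sub_le m t (Lv) _ fun k hk => hn2 k j ?_⟩
    have h1 := dist_node hm hk
    have h2 := dist_node hm hj
    calc dist (node m k) (node m j) ≤ dist t (node m k) + dist t (node m j) :=
          dist_triangle_left _ _ _
      _ < 1 / m + 1 / m := add_lt_add h1 h2
      _ = 2 / m := by ring
  have near : ∀ {P Q : CStarMatrix (Ix p q) (Ix p q) A}, ‖P - Q‖ ≤ 2 * δ → ‖Q‖ ≤ 1 + δ →
      ‖P‖ ≤ 2 := fun {P Q} h1 h2 => by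
    linarith [norm_le_norm_add_norm_sub' P Q]
  have hWn : ‖W‖ ≤ 2 := by
    refine (ContinuousMap.norm_le _ (by norm_num)).2 fun t => ?_
    obtain ⟨j, _, hj⟩ := hWt t
    exact near hj (hn1 j).1
  have hprod : ∀ {P Q P' Q' : CStarMatrix (Ix p q) (Ix p q) A} {r s : ℝ}, ‖P - Q‖ ≤ r →
      ‖P' - Q'‖ ≤ s → ‖P * P' - Q * Q'‖ ≤ r * ‖P'‖ + ‖Q‖ * s := by
    intro P Q P' Q' r s h1 h2
    rw [show P * P' - Q * Q' = (P - Q) * P' + Q * (P' - Q') by rw [sub_mul, mul_sub]; abel]
    exact (norm_add_le _ _).trans (add_le_add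
      ((norm_mul_le _ _).trans (mul_le_mul_of_nonneg_right h1 (norm_nonneg _)))
      ((norm_mul_le _ _).trans (mul_le_mul_of_nonneg_left h2 (norm_nonneg _))))
  have hstar : ∀ {P Q : CStarMatrix (Ix p q) (Ix p q) A} {r : ℝ}, ‖P - Q‖ ≤ r →
      ‖star P - star Q‖ ≤ r := fun {P Q r} h => by rwa [← star_sub, norm_star]
  have hW1 : ‖star W * W - 1‖ ≤ 10 * δ ∧ ‖W * star W - 1‖ ≤ 10 * δ := by
    refine ⟨(ContinuousMap.norm_le _ (by linarith)).2 fun t => ?_,
      (ContinuousMap.norm_le _ (by linarith)).2 fun t => ?_⟩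
    · obtain ⟨j, _, hj⟩ := hWt t
      have h := hprod (hstar hj) hj
      have h1 := near hj (hn1 j).1
      have h2 : ‖star (Lv j)‖ ≤ 1 + δ := by rw [norm_star]; exact (hn1 j).1
      show ‖star ((W : MPath A (Ix p q)) t) * (W : MPath A (Ix p q)) t - 1‖ ≤ _
      have := norm_sub_le_norm_sub_add_norm_sub (star ((W : MPath A (Ix p q)) t) *
        (W : MPath A (Ix p q)) t) (star (Lv j) * Lv j) 1
      nlinarith [(hn1 j).2.1, norm_nonneg (Lv j)]
    · obtain ⟨j, _, hj⟩ := hWt t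
      have h := hprod hj (hstar hj)
      have h1 : ‖star ((W : MPath A (Ix p q)) t)‖ ≤ 2 := by
        rw [norm_star]; exact near hj (hn1 j).1
      show ‖(W : MPath A (Ix p q)) t * star ((W : MPath A (Ix p q)) t) - 1‖ ≤ _
      have := norm_sub_le_norm_sub_add_norm_sub ((W : MPath A (Ix p q)) t *
        star ((W : MPath A (Ix p q)) t)) (Lv j * star (Lv j)) 1
      nlinarith [(hn1 j).2.2, (hn1 j).1]
  obtain ⟨u, hu1, hu2, hu⟩ := exists_unitary_near W (e := 10 * δ) (by linarith) hW1.1 hW1.2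
  have huW : ‖u - W‖ ≤ 20 * δ := hu.trans (by nlinarith)
  have hut : ∀ t, ∃ j, dist t (node m j) < 1 / m ∧
      ‖(u : MPath A (Ix p q)) t - Lv j‖ ≤ 22 * δ ∧ ‖(u : MPath A (Ix p q)) t‖ ≤ 2 := by
    intro t
    obtain ⟨j, hd, hj⟩ := hWt t
    have h1 : ‖(u : MPath A (Ix p q)) t - (W : MPath A (Ix p q)) t‖ ≤ 20 * δ :=
      (ContinuousMap.norm_coe_le_norm ((u - W : Blk A p q) : MPath A (Ix p q)) t).trans huW
    have h2 : ‖(u : MPath A (Ix p q)) t - Lv j‖ ≤ 22 * δ := by
      linarith [norm_sub_le_norm_sub_add_norm_sub ((u : MPath A (Ix p q)) t)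
        ((W : MPath A (Ix p q)) t) (Lv j)]
    refine ⟨j, hd, h2, ?_⟩
    linarith [norm_le_norm_add_norm_sub' ((u : MPath A (Ix p q)) t) (Lv j), (hn1 j).1]
  refine ⟨u, hu1, hu2, fun a ha => ?_, fun i => ?_, fun X hX => ⟨bv X, ?_⟩⟩
  · refine (ContinuousMap.norm_le _ hε.le).2 fun t => ?_
    obtain ⟨j, _, hj, _⟩ := hut t
    show ‖(u : MPath A (Ix p q)) t * dg A (Ix p q) a - dg A (Ix p q) a * (u : MPath A (Ix p q)) t‖
      ≤ ε
    have hd : ‖dg A (Ix p q) a‖ ≤ CF := hCF a ha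
    set P := (u : MPath A (Ix p q)) t
    set D := dg A (Ix p q) a
    have hk := hn3 j a ha
    rw [show P * D - D * P = (P - Lv j) * D + (Lv j * D - D * Lv j) + D * (Lv j - P) by
      rw [sub_mul, mul_sub]; abel]
    refine (norm_add₃_le).trans ?_
    have h1 : ‖(P - Lv j) * D‖ ≤ 22 * δ * CF := (norm_mul_le _ _).trans
      (mul_le_mul hj hd (norm_nonneg _) (by positivity))
    have h2 : ‖D * (Lv j - P)‖ ≤ CF * (22 * δ) := (norm_mul_le _ _).trans
      (mul_le_mul hd (by rwa [norm_sub_rev]) (norm_nonneg _) hCF0)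
    nlinarith
  · refine (ContinuousMap.norm_le _ hε.le).2 fun t => ?_
    obtain ⟨j, _, hj, _⟩ := hut t
    show ‖mapM (Ix p q) (μ i) ((u : MPath A (Ix p q)) t) - (u : MPath A (Ix p q)) t‖ ≤ ε
    set P := (u : MPath A (Ix p q)) t
    rw [show mapM (Ix p q) (μ i) P - P = mapM (Ix p q) (μ i) (P - Lv j) + (Lv j - P) by
      rw [map_sub, hn5]; abel]
    have h1 := (NonUnitalStarAlgHom.norm_apply_le (mapM (Ix p q) (μ i)) (P - Lv j)).trans hj
    have h2 : ‖Lv j - P‖ ≤ 22 * δ := by rwa [norm_sub_rev]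
    have k1 : 0 ≤ δ * (C + CF) := mul_nonneg hδ.le (add_nonneg hC0 hCF0)
    exact (norm_add_le _ _).trans (by nlinarith)
  · have hη : 0 ≤ η := hη0 X hX
    refine (ContinuousMap.norm_le _ (by linarith)).2 fun t => ?_
    obtain ⟨j, hd, hj, hP⟩ := hut t
    show ‖star ((u : MPath A (Ix p q)) t) * (X : MPath A (Ix p q)) t * (u : MPath A (Ix p q)) t
      - dg A (Ix p q) (bv X)‖ ≤ η + ε
    set P := (u : MPath A (Ix p q)) t
    set Q := Lv j
    set Y := (X : MPath A (Ix p q)) t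
    set Z := (X : MPath A (Ix p q)) (node m j)
    have hXn : ‖(X : MPath A (Ix p q))‖ ≤ C := hC X hX
    have hY : ‖Y‖ ≤ C := (ContinuousMap.norm_coe_le_norm _ t).trans hXn
    have hYZ : ‖Y - Z‖ ≤ δ := hXc X hX t (node m j) (lt_of_lt_of_le hd (by gcongr; norm_num))
    have hQ : ‖Q‖ ≤ 1 + δ := (hn1 j).1
    have h1 : ‖star P * Y - star Q * Z‖ ≤ 22 * δ * C + (1 + δ) * δ := by
      refine (hprod (hstar hj) hYZ).trans (add_le_add
        (mul_le_mul_of_nonneg_left hY (by positivity)) ?_)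
      rw [norm_star]
      exact mul_le_mul_of_nonneg_right hQ hδ.le
    have hQZ : ‖star Q * Z‖ ≤ (1 + δ) * C := (norm_mul_le _ _).trans (by
      rw [norm_star]
      exact mul_le_mul hQ ((ContinuousMap.norm_coe_le_norm _ _).trans hXn) (norm_nonneg _)
        (by linarith))
    have h2 := hprod h1 hj
    have h3 := hn4 j X hX
    have h4 := norm_sub_le_norm_sub_add_norm_sub (star P * Y * P) (star Q * Z * Q)
      (dg A (Ix p q) (bv X))
    have hA : (22 * δ * C + (1 + δ) * δ) * ‖P‖ ≤ (22 * δ * C + (1 + δ) * δ) * 2 :=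
      mul_le_mul_of_nonneg_left hP (by positivity)
    have hB : ‖star Q * Z‖ * (22 * δ) ≤ (1 + δ) * C * (22 * δ) :=
      mul_le_mul_of_nonneg_right hQZ (by positivity)
    have k1 : δ * δ ≤ δ * (1 / 100) := mul_le_mul_of_nonneg_left hδ1 hδ.le
    have k2 : δ * δ * C ≤ δ * (1 / 100) * C := mul_le_mul_of_nonneg_right k1 hC0
    have k3 : 0 ≤ δ * C := mul_nonneg hδ.le hC0
    have k4 : 0 ≤ δ * CF := mul_nonneg hδ.le hCF0
    linarith

/-- Invariant unitaries over the ultrapower lift to almost invariant unitaries. -/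
theorem lift_inv {A : Type u} [CStarAlgebra A] [PartialOrder A] [StarOrderedRing A] [Nontrivial A]
    {ω : Ultrafilter ℕ} [PartialOrder (UPow A ω)] [StarOrderedRing (UPow A ω)]
    {H : Type*} [Group H] [Fintype H] (β : H →* (A ≃⋆ₐ[ℂ] A)) {p q : ℕ}
    (ic : A →⋆ₐ[ℂ] UPow A ω) (hic : ∀ a, ic a = UPow.const a)
    (V : Blk (UPow A ω) p q) (hV1 : star V * V = 1) (hV2 : V * star V = 1)
    (hVi : ∀ h t x y, upowAct ω (β h) ((V : MPath (UPow A ω) (Ix p q)) t x y) =
      (V : MPath (UPow A ω) (Ix p q)) t x y)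
    (F : Finset A)
    (hF : ∀ a ∈ F, V * const (UPow A ω) p q (ic a) = const (UPow A ω) p q (ic a) * V)
    (G : Finset (Blk A p q)) (η ε : ℝ) (hε : 0 < ε)
    (hG : ∀ X ∈ G, ∃ c : UPow A ω,
        ‖star V * mapBlk p q ic X * V - const (UPow A ω) p q c‖ ≤ η) :
    ∃ u : Blk A p q, star u * u = 1 ∧ u * star u = 1 ∧
      (∀ a ∈ F, ‖u * const A p q a - const A p q a * u‖ ≤ ε) ∧
      (∀ h, ‖mapBlk p q (β h : A →⋆ₐ[ℂ] A) u - u‖ ≤ ε) ∧
      ∀ X ∈ G, ∃ b : A, ‖star u * X * u - const A p q b‖ ≤ η + ε := by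
  classical
  -- constants
  set C : ℝ := ∑ X ∈ G, ‖(X : MPath A (Ix p q))‖ with hC
  have hC0 : 0 ≤ C := Finset.sum_nonneg fun _ _ => norm_nonneg _
  set CF : ℝ := ∑ a ∈ F, ‖dg A (Ix p q) a‖ with hCF
  have hCF0 : 0 ≤ CF := Finset.sum_nonneg fun _ _ => norm_nonneg _
  set δ : ℝ := min (1 / 100) (ε / (100 * (C + CF + 1))) with hδdef
  have hδ : 0 < δ := lt_min (by norm_num) (by positivity)
  have hδ1 : δ ≤ 1 / 100 := min_le_left _ _
  have hδε : δ * (100 * (C + CF + 1)) ≤ ε := (le_div_iff₀ (by positivity)).mp (min_le_right _ _)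
  -- nodes
  let Vp : MPath (UPow A ω) (Ix p q) := (V : MPath (UPow A ω) (Ix p q))
  obtain ⟨m, hm, hVc, hXc⟩ : ∃ m : ℕ, 0 < m ∧
      (∀ s t : unitInterval, dist s t < 2 / m → ‖Vp s - Vp t‖ ≤ δ) ∧
      ∀ X ∈ G, ∀ s t : unitInterval, dist s t < 2 / m →
        ‖(X : MPath A (Ix p q)) s - (X : MPath A (Ix p q)) t‖ ≤ δ := by
    have h1 : ∀ᶠ m : ℕ in atTop, ∀ s t : unitInterval, dist s t < 2 / m → ‖Vp s - Vp t‖ ≤ δ := by
      obtain ⟨d, hd, h⟩ := Metric.uniformContinuous_iff.mp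
        (CompactSpace.uniformContinuous_of_continuous Vp.continuous) δ hδ
      filter_upwards [(tendsto_const_div_atTop_nhds_zero_nat (2 : ℝ)).eventually_lt_const hd]
        with m hm s t hst
      exact le_of_lt (by rw [← dist_eq_norm]; exact h (hst.trans hm))
    have h2 : ∀ᶠ m : ℕ in atTop, ∀ X ∈ G, ∀ s t : unitInterval, dist s t < 2 / m →
        ‖(X : MPath A (Ix p q)) s - (X : MPath A (Ix p q)) t‖ ≤ δ := by
      refine (eventually_all_finset G).2 fun X _ => ?_
      obtain ⟨d, hd, h⟩ := Metric.uniformContinuous_iff.mp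
        (CompactSpace.uniformContinuous_of_continuous (X : MPath A (Ix p q)).continuous) δ hδ
      filter_upwards [(tendsto_const_div_atTop_nhds_zero_nat (2 : ℝ)).eventually_lt_const hd]
        with m hm s t hst
      exact le_of_lt (by rw [← dist_eq_norm]; exact h (hst.trans hm))
    obtain ⟨m, ⟨hm1, hm2⟩, hm0⟩ := ((h1.and h2).and (eventually_gt_atTop 0)).exists
    exact ⟨m, hm0, hm1, hm2⟩
  -- lifts of the node values, respecting the ends
  have hL : ∀ k, ∃ L : ℕ →ᵇ CStarMatrix (Ix p q) (Ix p q) A,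
      matUltra A (Ix p q) ω L = Vp (node m k) ∧
      (∀ (h : H) n, mapM (Ix p q) (β h : A →⋆ₐ[ℂ] A) (L n) = L n) ∧
      (k = 0 → ∀ n, IsLeft (L n)) ∧ (k = Fin.last m → ∀ n, IsRight (L n)) := by
    intro k
    choose sec0 hsec0 using fun x : UPow A ω => UPow.mk_surjective (ω := ω) x
    let sec : UPow A ω → ℕ →ᵇ A := fun x => avgSeq β (sec0 x)
    have hsec : ∀ x, (∀ h, upowAct ω (β h) x = x) → (UPow.mk (sec x) : UPow A ω) = x :=
      fun x hx => mk_avgSeq β (hsec0 x) hx
    have hfix : ∀ (c : Ix p q → Ix p q → UPow A ω) (h : H) n (x y : Ix p q),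
        β h (sec (c x y) n) = sec (c x y) n := fun c h n x y =>
      congrArg (fun f : ℕ →ᵇ A => f n) (seqAct_avgSeq β h (sec0 (c x y)))
    by_cases h0 : k = 0
    · obtain ⟨a, ha⟩ := V.2.1
      refine ⟨seqMat fun x y => if x.2 = y.2 then sec (a x.1 y.1) else 0, ?_, ?_, ?_, ?_⟩
      · refine CStarMatrix.ext fun x y => ?_
        rw [matUltra_seqMat, h0, node_zero]
        refine Eq.trans ?_ (ha x y).symm
        split_ifs with hxy
        · refine hsec _ fun h => ?_
          have h' := hVi h 0 x y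
          rwa [ha x y, if_pos hxy] at h'
        · exact map_zero _
      · intro h n
        refine CStarMatrix.ext fun x y => ?_
        rw [mapM_apply, seqMat_apply]
        split_ifs
        · exact hfix (fun x y => a x.1 y.1) h n x y
        · exact map_zero _
      · intro _ n
        exact ⟨fun i i' => sec (a i i') n, fun x y => by
          rw [seqMat_apply]; split_ifs <;> simp⟩
      · intro hl
        exact absurd (congrArg Fin.val (h0.symm.trans hl)) (by simpa using hm.ne)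
    · by_cases hl : k = Fin.last m
      · obtain ⟨b, hb⟩ := V.2.2
        refine ⟨seqMat fun x y => if x.1 = y.1 then sec (b x.2 y.2) else 0, ?_, ?_, ?_, ?_⟩
        · refine CStarMatrix.ext fun x y => ?_
          rw [matUltra_seqMat, hl, node_last hm]
          refine Eq.trans ?_ (hb x y).symm
          split_ifs with hxy
          · refine hsec _ fun h => ?_
            have h' := hVi h 1 x y
            rwa [hb x y, if_pos hxy] at h'
          · exact map_zero _
        · intro h n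
          refine CStarMatrix.ext fun x y => ?_
          rw [mapM_apply, seqMat_apply]
          split_ifs
          · exact hfix (fun x y => b x.2 y.2) h n x y
          · exact map_zero _
        · exact fun h => absurd h h0
        · intro _ n
          exact ⟨fun i i' => sec (b i i') n, fun x y => by
            rw [seqMat_apply]; split_ifs <;> simp⟩
      · exact ⟨seqMat fun x y => sec (Vp (node m k) x y),
          CStarMatrix.ext fun x y => by rw [matUltra_seqMat, hsec _ fun h => hVi h _ x y],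
          fun h n => CStarMatrix.ext fun x y => by
            rw [mapM_apply, seqMat_apply]; exact hfix (fun x y => Vp (node m k) x y) h n x y,
          fun h => absurd h h0, fun h => absurd h hl⟩
  choose L hLV hLi hLl hLr using hL
  choose! c hc using hG
  choose sec hsec using fun x : UPow A ω => UPow.mk_surjective (ω := ω) x
  -- constants as sequences
  let cm : CStarMatrix (Ix p q) (Ix p q) A → (ℕ →ᵇ CStarMatrix (Ix p q) (Ix p q) A) :=
    fun M => BoundedContinuousFunction.const ℕ M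
  have hcm : ∀ M, matUltra A (Ix p q) ω (cm M) = mapM (Ix p q) ic M := fun M =>
    CStarMatrix.ext fun x y => by
      rw [matUltra_apply, mapM_apply, hic]; rfl
  let dseq : (ℕ →ᵇ A) → (ℕ →ᵇ CStarMatrix (Ix p q) (Ix p q) A) :=
    fun f => seqMat fun x y => if x = y then f else 0
  have hdseq : ∀ f, matUltra A (Ix p q) ω (dseq f) = dg (UPow A ω) (Ix p q) (UPow.mk f) :=
    fun f => CStarMatrix.ext fun x y => by
      rw [matUltra_seqMat, dg_apply]; split_ifs <;> simp
  have hdseq' : ∀ f n, dseq f n = dg A (Ix p q) (f n) := fun f n =>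
    CStarMatrix.ext fun x y => by
      rw [seqMat_apply, dg_apply]; split_ifs <;> simp
  -- facts along the nodes
  have hunit1 : ∀ t, star (Vp t) * Vp t = 1 := fun t =>
    congrArg (fun W : Blk (UPow A ω) p q => (W : MPath (UPow A ω) (Ix p q)) t) hV1
  have hunit2 : ∀ t, Vp t * star (Vp t) = 1 := fun t =>
    congrArg (fun W : Blk (UPow A ω) p q => (W : MPath (UPow A ω) (Ix p q)) t) hV2
  have hVnorm : ∀ t, ‖Vp t‖ ≤ 1 := by
    intro t
    have h := CStarRing.norm_star_mul_self (x := Vp t)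
    rw [hunit1] at h
    have h1 : ‖(1 : CStarMatrix (Ix p q) (Ix p q) (UPow A ω))‖ ≤ 1 := by
      rcases subsingleton_or_nontrivial (CStarMatrix (Ix p q) (Ix p q) (UPow A ω)) with hs | hs
      · simp [Subsingleton.elim (1 : CStarMatrix (Ix p q) (Ix p q) (UPow A ω)) 0]
      · rw [CStarRing.norm_one]
    nlinarith [norm_nonneg (Vp t)]
  have e1 : ∀ k, ∀ᶠ n in (ω : Filter ℕ), ‖L k n‖ ≤ 1 + δ ∧
      ‖star (L k n) * L k n - 1‖ ≤ δ ∧ ‖L k n * star (L k n) - 1‖ ≤ δ := by
    intro k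
    refine ((eventually_le_of_matUltra hδ (by rw [hLV]; exact hVnorm _)).and
      ((eventually_le_of_matUltra (f := star (L k) * L k - 1) (r := 0) hδ ?_).and
      (eventually_le_of_matUltra (f := L k * star (L k) - 1) (r := 0) hδ ?_))).mono
      fun n hn => ⟨hn.1, by simpa using hn.2.1, by simpa using hn.2.2⟩
    · rw [map_sub, map_mul, map_star, map_one, hLV, hunit1, sub_self, norm_zero]
    · rw [map_sub, map_mul, map_star, map_one, hLV, hunit2, sub_self, norm_zero]
  have e2 : ∀ k j, ∀ᶠ n in (ω : Filter ℕ),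
      dist (node m k) (node m j) < 2 / m → ‖L k n - L j n‖ ≤ 2 * δ := by
    intro k j
    by_cases hd : dist (node m k) (node m j) < 2 / m
    · refine (eventually_le_of_matUltra (f := L k - L j) (r := δ) hδ ?_).mono fun n hn _ => by
        simp only [BoundedContinuousFunction.sub_apply] at hn; linarith
      rw [map_sub, hLV, hLV]
      exact hVc _ _ hd
    · exact Eventually.of_forall fun n h => absurd h hd
  have e3 : ∀ k, ∀ a ∈ F, ∀ᶠ n in (ω : Filter ℕ),
      ‖L k n * dg A (Ix p q) a - dg A (Ix p q) a * L k n‖ ≤ δ := by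
    intro k a ha
    refine (eventually_le_of_matUltra (f := L k * cm (dg A (Ix p q) a) - cm (dg A (Ix p q) a) * L k)
      (r := 0) hδ ?_).mono fun n hn => by simpa [cm] using hn
    have h := congrArg (fun W : Blk (UPow A ω) p q => (W : MPath (UPow A ω) (Ix p q)) (node m k))
      (hF a ha)
    have hd : mapM (Ix p q) ic (dg A (Ix p q) a) = dg (UPow A ω) (Ix p q) (ic a) :=
      CStarMatrix.ext fun x y => by
        rw [mapM_apply, dg_apply, dg_apply]; split_ifs <;> simp
    rw [map_sub, map_mul, map_mul, hLV, hcm, hd]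
    simp only [MulMemClass.coe_mul, ContinuousMap.mul_apply, const_apply] at h
    rw [show Vp (node m k) * dg (UPow A ω) (Ix p q) (ic a) =
      dg (UPow A ω) (Ix p q) (ic a) * Vp (node m k) from h, sub_self, norm_zero]
  have e4 : ∀ k, ∀ X ∈ G, ∀ᶠ n in (ω : Filter ℕ),
      ‖star (L k n) * (X : MPath A (Ix p q)) (node m k) * L k n
        - dg A (Ix p q) (sec (c X) n)‖ ≤ η + δ := by
    intro k X hX
    refine (eventually_le_of_matUltra
      (f := star (L k) * cm ((X : MPath A (Ix p q)) (node m k)) * L k - dseq (sec (c X)))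
      (r := η) hδ ?_).mono fun n hn => by simpa [cm, hdseq'] using hn
    rw [map_sub, map_mul, map_mul, map_star, hLV, hcm, hdseq, hsec]
    exact ((ContinuousMap.norm_coe_le_norm
      (((star V * mapBlk p q ic X * V - const (UPow A ω) p q (c X) : Blk (UPow A ω) p q) :
        MPath (UPow A ω) (Ix p q))) (node m k))).trans (hc X hX)
  obtain ⟨n, hn1, hn2, hn3, hn4⟩ :=
    ((eventually_all.2 e1).and ((eventually_all.2 fun k => eventually_all.2 (e2 k)).and
      ((eventually_all.2 fun k => (eventually_all_finset F).2 (e3 k)).and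
        (eventually_all.2 fun k => (eventually_all_finset G).2 (e4 k))))).exists
  exact exists_unitary_path_inv (fun h : H => (β h : A →⋆ₐ[ℂ] A)) hm (fun k => L k n) F G (fun X => sec (c X) n) hδ hδ1 hε hδε hC0 hCF0
    (fun X hX => (norm_nonneg _).trans (hc X hX))
    (fun X hX => Finset.single_le_sum (f := fun X : Blk A p q => ‖(X : MPath A (Ix p q))‖)
      (fun b _ => norm_nonneg _) hX)
    (fun a ha => Finset.single_le_sum (f := fun b : A => ‖dg A (Ix p q) b‖)
      (fun b _ => norm_nonneg _) ha)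
    (hLl 0 rfl n) (hLr _ rfl n) hXc hn1 hn2 hn3 (fun h k => hLi k h n) hn4

end

end Vale.Agent.P095
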