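import Vale.Agent.P101.JS.SeqLimit

/-!
# P095: compatible endomorphisms of the stages act on the inductive limit
-/

namespace Vale.Agent.P095

open Vale.Agent.P101.JS Filter Topology
open scoped ENNReal CStarAlgebra

set_option linter.unusedSectionVars false

noncomputable section

variable {B : ℕ → Type*} [∀ n, CStarAlgebra (B n)] [∀ n, Nontrivial (B n)]
  (f : ∀ n, B n →⋆ₐ[ℂ] B (n + 1)) (ψ : ∀ n, B n →⋆ₐ[ℂ] B n)

/-- Componentwise application. -/
def lpMap : lp B ∞ →⋆ₐ[ℂ] lp B ∞ where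
  toFun x := ⟨fun n => ψ n (x n), memℓp_infty ⟨‖x‖, by
    rintro _ ⟨n, rfl⟩
    exact (NonUnitalStarAlgHom.norm_apply_le (ψ n) _).trans
      (lp.norm_apply_le_norm ENNReal.top_ne_zero x n)⟩⟩
  map_one' := Subtype.ext (funext fun n => map_one (ψ n))
  map_mul' x y := Subtype.ext (funext fun n => map_mul (ψ n) (x n) (y n))
  map_zero' := Subtype.ext (funext fun n => map_zero (ψ n))
  map_add' x y := Subtype.ext (funext fun n => map_add (ψ n) (x n) (y n))
  commutes' r := Subtype.ext (funext fun n => AlgHomClass.commutes (ψ n) r)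
  map_star' x := Subtype.ext (funext fun n => map_star (ψ n) (x n))

theorem lpMap_apply (x : lp B ∞) (n : ℕ) : lpMap ψ x n = ψ n (x n) := rfl

/-- The induced map of bounded sequences modulo null sequences. -/
def quotMap : SeqQuot B →⋆ₐ[ℂ] SeqQuot B :=
  { Ideal.Quotient.liftₐ (nullSeq B) (SeqQuot.mk.comp (lpMap ψ).toAlgHom) fun x hx => by
      show (SeqQuot.mk (lpMap ψ x) : SeqQuot B) = 0
      rw [← map_zero (SeqQuot.mk (B := B)), SeqQuot.mk_eq_mk, sub_zero, mem_nullSeq]
      exact squeeze_zero (fun n => norm_nonneg _)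
        (fun n => NonUnitalStarAlgHom.norm_apply_le (ψ n) _) ((mem_nullSeq B).1 hx) with
    map_star' := fun x => by
      obtain ⟨y, rfl⟩ := SeqQuot.mk_surjective x
      rw [← SeqQuot.mk_star]
      show SeqQuot.mk (lpMap ψ (star y)) = star (SeqQuot.mk (lpMap ψ y))
      rw [map_star, SeqQuot.mk_star] }

theorem quotMap_mk (x : lp B ∞) : quotMap ψ (SeqQuot.mk x) = SeqQuot.mk (lpMap ψ x) := rfl

variable {f ψ}

theorem quotMap_toSeq (hψ : ∀ n x, ψ (n + 1) (f n x) = f n (ψ n x)) (n : ℕ) (x : B n) :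
    quotMap ψ (toSeq f n x) = toSeq f n (ψ n x) := by
  rw [toSeq_apply, toSeq_apply, quotMap_mk]
  refine SeqQuot.mk_eq_of_eventually ?_
  filter_upwards [eventually_ge_atTop n] with m hm
  rw [lpMap_apply, tailSeq_apply f hm, tailSeq_apply f hm]
  induction m, hm using Nat.le_induction with
  | base => rw [iter_self, iter_self]
  | succ k hk ih => rw [iter_succ f hk, iter_succ f hk, hψ, ih]

theorem quotMap_mem (hψ : ∀ n x, ψ (n + 1) (f n x) = f n (ψ n x)) {y : SeqQuot B}
    (hy : y ∈ seqLim f) : quotMap ψ y ∈ seqLim f := by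
  refine map_mem_closure (map_continuous (quotMap ψ)) hy ?_
  rintro _ ⟨n, x, rfl⟩
  exact ⟨n, ψ n x, (quotMap_toSeq hψ n x).symm⟩

/-- The induced map of the inductive limit. -/
def limMap (hψ : ∀ n x, ψ (n + 1) (f n x) = f n (ψ n x)) : SeqLim f →⋆ₐ[ℂ] SeqLim f where
  toFun y := ⟨quotMap ψ (SeqLim.val f y), quotMap_mem hψ (y : seqLim f).2⟩
  map_one' := Subtype.ext (map_one (quotMap ψ))
  map_mul' _ _ := Subtype.ext (map_mul (quotMap ψ) _ _)
  map_zero' := Subtype.ext (map_zero (quotMap ψ))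
  map_add' _ _ := Subtype.ext (map_add (quotMap ψ) _ _)
  commutes' r := Subtype.ext (AlgHomClass.commutes (quotMap ψ) r)
  map_star' _ := Subtype.ext (map_star (quotMap ψ) _)

theorem limMap_incl (hψ : ∀ n x, ψ (n + 1) (f n x) = f n (ψ n x)) (n : ℕ) (x : B n) :
    limMap hψ (incl f n x) = incl f n (ψ n x) :=
  Subtype.ext (quotMap_toSeq hψ n x)

end

end Vale.Agent.P095
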