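import Vale.Agent.P101.JS.Main
import Vale.Agent.P095.Copies
import Vale.Agent.P095.Lift
import Vale.Agent.P095.LimMap

/-!
# P095: almost invariant unitaries moving the stages into the constants
-/

namespace Vale.Agent.P095

open VAgent.P101 Vale.Agent.P101.JS Filter TopologicalSpace
open scoped ComplexOrder CStarAlgebra Topology BoundedContinuousFunction

set_option linter.unusedSectionVars false
set_option linter.style.haveILetI false

noncomputable section

universe u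

variable {A : Type u} [CStarAlgebra A] [PartialOrder A] [StarOrderedRing A] [Nontrivial A]

/-- An automorphism of `A` acting on the limit of the stages by acting on the coefficients. -/
def zAct (e : A ≃⋆ₐ[ℂ] A) : ZLim A →⋆ₐ[ℂ] ZLim A :=
  limMap (f := fun m => conn A m) (ψ := fun m => mapBlk (P m) (Q m) (e : A →⋆ₐ[ℂ] A))
    fun m x => (conn_natural m (e : A →⋆ₐ[ℂ] A) x).symm

theorem zAct_incl (e : A ≃⋆ₐ[ℂ] A) (n : ℕ) (x : Blk A (P n) (Q n)) :
    zAct e (incl (fun m => conn A m) n x) =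
      incl (fun m => conn A m) n (mapBlk (P n) (Q n) (e : A →⋆ₐ[ℂ] A) x) :=
  limMap_incl (f := fun m => conn A m) (ψ := fun m => mapBlk (P m) (Q m) (e : A →⋆ₐ[ℂ] A))
    _ n x

theorem zAct_toZLim (e : A ≃⋆ₐ[ℂ] A) (a : A) : zAct e (toZLim A a) = toZLim A (e a) := by
  rw [toZLim_apply a 0, toZLim_apply (e a) 0, zAct_incl, mapBlk_const]
  rfl

theorem zAct_mul (e e' : A ≃⋆ₐ[ℂ] A) (y : ZLim A) : zAct (e * e') y = zAct e (zAct e' y) := by
  have hcl : IsClosed {y : ZLim A | zAct (e * e') y = zAct e (zAct e' y)} :=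
    isClosed_eq (map_continuous _) ((map_continuous _).comp (map_continuous _))
  refine closure_minimal ?_ hcl (show y ∈ closure (⋃ n, Set.range (incl (fun m => conn A m) n)) from
    Metric.mem_closure_iff.2 fun ε hε => by
      obtain ⟨n, x, hx⟩ := exists_incl_near (fun m => conn A m) y hε
      exact ⟨_, Set.mem_iUnion.2 ⟨n, x, rfl⟩, by rwa [dist_eq_norm]⟩)
  intro z hz
  obtain ⟨n, x, rfl⟩ := Set.mem_iUnion.1 hz
  show zAct (e * e') _ = zAct e (zAct e' _)
  rw [zAct_incl, zAct_incl, zAct_incl]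
  refine congrArg _ (Subtype.ext (ContinuousMap.ext fun t => CStarMatrix.ext fun i j => rfl))

/-- Pushing a unitary forward, keeping track of the entries. -/
theorem exists_push_entries {B C : Type*} [CStarAlgebra B] [PartialOrder B] [StarOrderedRing B]
    [CStarAlgebra C] [PartialOrder C] [StarOrderedRing C] {p q : ℕ} (φ : B →⋆ₐ[ℂ] C)
    (H : Blk B p q) (h1 : star H * H = 1) (h2 : H * star H = 1) :
    ∃ V : Blk C p q, star V * V = 1 ∧ V * star V = 1 ∧
      (∀ t x y, ∃ b, (V : MPath C (Ix p q)) t x y = φ b) ∧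
      (∀ c : C, (∀ x, Commute (φ x) c) → V * const C p q c = const C p q c * V) ∧
      ∀ (g : Blk ℂ p q) (b : B) (r : ℝ), ‖star H * scBlk B p q g * H - const B p q b‖ ≤ r →
        ‖star V * scBlk C p q g * V - const C p q (φ b)‖ ≤ r := by
  refine ⟨mapBlk p q φ H, by rw [← map_star, ← map_mul, h1, map_one],
    by rw [← map_star, ← map_mul, h2, map_one], fun t x y => ⟨_, rfl⟩, fun c hc => ?_,
    fun g b r hr => ?_⟩
  · refine commute_const fun t x y => ?_
    rw [mapBlk_apply, mapM_apply]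
    exact hc _
  · have e : mapBlk p q φ (star H * scBlk B p q g * H - const B p q b) =
        star (mapBlk p q φ H) * scBlk C p q g * mapBlk p q φ H - const C p q (φ b) := by
      rw [map_sub, map_mul, map_mul, map_star, mapBlk_scBlk, mapBlk_const]
    rw [← e]
    exact (NonUnitalStarAlgHom.norm_apply_le (mapBlk p q φ) _).trans hr

variable [SeparableSpace A] {ω : Ultrafilter ℕ} {H : Type*} [Group H] [Fintype H]
  (β : H →* (A ≃⋆ₐ[ℂ] A))

/-- The unitary over the ultrapower. -/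
theorem exists_V_inv (hω : (ω : Filter ℕ) ≤ cofinite) (hno : IsEmpty (fixedAlg ω β →⋆ₐ[ℂ] ℂ))
    (hHF : HalfFlipStatement) (m : ℕ) (G : Set (Blk ℂ (P m) (Q m))) (η : ℝ)
    (U : MPath ℂ (Ix (P m) (Q m))) (h1 : star U * U = 1) (h2 : U * star U = 1)
    (hU : ∀ g ∈ G, ∀ t s : unitInterval,
      ‖star (U t) * (g : MPath ℂ (Ix (P m) (Q m))) t * U t
        - star (U s) * (g : MPath ℂ (Ix (P m) (Q m))) s * U s‖ ≤ η) :
    letI : PartialOrder (UPow A ω) := CStarAlgebra.spectralOrder (UPow A ω)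
    letI : StarOrderedRing (UPow A ω) := CStarAlgebra.spectralOrderedRing (UPow A ω)
    ∃ V : Blk (UPow A ω) (P m) (Q m), star V * V = 1 ∧ V * star V = 1 ∧
      (∀ h t x y, upowAct ω (β h) ((V : MPath (UPow A ω) (Ix (P m) (Q m))) t x y) =
        (V : MPath (UPow A ω) (Ix (P m) (Q m))) t x y) ∧
      (∀ a : A, V * const (UPow A ω) (P m) (Q m) (icHom A ω a) =
        const (UPow A ω) (P m) (Q m) (icHom A ω a) * V) ∧
      ∀ g ∈ G, ∃ c : UPow A ω,
        ‖star V * scBlk (UPow A ω) (P m) (Q m) g * V - const (UPow A ω) (P m) (Q m) c‖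
          ≤ 10 * η := by
  letI : PartialOrder (UPow A ω) := CStarAlgebra.spectralOrder (UPow A ω)
  letI : StarOrderedRing (UPow A ω) := CStarAlgebra.spectralOrderedRing (UPow A ω)
  letI : PartialOrder (Blk ℂ (P m) (Q m)) := CStarAlgebra.spectralOrder (Blk ℂ (P m) (Q m))
  letI : StarOrderedRing (Blk ℂ (P m) (Q m)) :=
    CStarAlgebra.spectralOrderedRing (Blk ℂ (P m) (Q m))
  obtain ⟨hp, hq, hpq⟩ := size_spec m
  obtain ⟨H, hH1, hH2, hH3⟩ := hHF (P m) (Q m) (by omega) (by omega) G η U h1 h2 hU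
  obtain ⟨n, hn, ⟨θ⟩⟩ := dimDropHom (P m) (Q m) hp hq hpq
  haveI : NeZero n := ⟨by omega⟩
  obtain ⟨Φ⟩ := exists_dimDrop_fixed β hω hno n
  obtain ⟨φ, hφ, hfix⟩ : ∃ φ : Blk ℂ (P m) (Q m) →⋆ₐ[ℂ] UPow A ω,
      (∀ x, φ x ∈ CentralSeq A ω) ∧ ∀ h x, upowAct ω (β h) (φ x) = φ x :=
    ⟨(CentralSeq A ω).subtype.comp ((fixedAlg ω β).subtype.comp (Φ.comp θ)),
      fun x => (Φ (θ x)).1.2,
      fun h x => congrArg Subtype.val ((mem_fixedAlg β).1 (Φ (θ x)).2 h)⟩
  obtain ⟨V, hV1, hV2, hV5, hV3, hV4⟩ := exists_push_entries φ H hH1 hH2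
  refine ⟨V, hV1, hV2, fun h t x y => ?_, fun a => hV3 _ fun x => (mem_centralSeq.1 (hφ x) a).symm,
    fun g hg => ⟨φ g, hV4 g g _ (hH3 g hg)⟩⟩
  obtain ⟨b, hb⟩ := hV5 t x y
  rw [hb]
  exact hfix h b

/-- One stage: a unitary almost commuting with `F` and moving the `X k` close to constants. -/
theorem exists_stage_inv (hω : (ω : Filter ℕ) ≤ cofinite) (hno : IsEmpty (fixedAlg ω β →⋆ₐ[ℂ] ℂ))
    (hHF : HalfFlipStatement) (F : Finset A) {n : ℕ} {ι : Type*} [Fintype ι] (L : ι → ℕ)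
    (a : ∀ k, Fin (L k) → A) (g : ∀ k, Fin (L k) → Blk ℂ (P n) (Q n)) {ε : ℝ} (hε : 0 < ε) :
    ∃ (d : ℕ) (u : Blk A (P (n + d)) (Q (n + d))), star u * u = 1 ∧ u * star u = 1 ∧
      (∀ x ∈ F, ‖u * const A (P (n + d)) (Q (n + d)) x
        - const A (P (n + d)) (Q (n + d)) x * u‖ ≤ ε) ∧
      (∀ h, ‖mapBlk (P (n + d)) (Q (n + d)) (β h : A →⋆ₐ[ℂ] A) u - u‖ ≤ ε) ∧
      ∀ k, ∃ b : A,
        ‖star u * connTo A n d (∑ i, const A (P n) (Q n) (a k i) * scBlk A (P n) (Q n) (g k i)) * u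
          - const A (P (n + d)) (Q (n + d)) b‖ ≤ ε := by
  classical
  set C : ℝ := 1 + ∑ k, ∑ i, ‖a k i‖ with hC
  have hC0 : 0 < C := by positivity
  let G0 : Finset (Blk ℂ (P n) (Q n)) := Finset.univ.biUnion fun k : ι => Finset.univ.image (g k)
  obtain ⟨d, U, hU1, hU2, hU3⟩ := collapse n G0 (η := ε / (20 * C)) (by positivity)
  letI : PartialOrder (UPow A ω) := CStarAlgebra.spectralOrder (UPow A ω)
  letI : StarOrderedRing (UPow A ω) := CStarAlgebra.spectralOrderedRing (UPow A ω)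
  obtain ⟨V, hV1, hV2, hVi, hVa, hVg⟩ := exists_V_inv β hω hno hHF (n + d)
    (connTo ℂ n d '' (G0 : Set _)) (ε / (20 * C)) U hU1 hU2 (by
      rintro _ ⟨g', hg', rfl⟩
      exact hU3 g' hg')
  obtain ⟨u, hu1, hu2, huF, hui, huG⟩ := lift_inv β (icHom A ω) (icHom_apply ω)
    V hV1 hV2 hVi F (fun x _ => hVa x) (Finset.univ.image fun k => ∑ i,
      const A (P (n + d)) (Q (n + d)) (a k i) *
        scBlk A (P (n + d)) (Q (n + d)) (connTo ℂ n d (g k i))) (ε / 2) (ε / 2) (by positivity) (by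
      intro Y hY
      obtain ⟨k, -, rfl⟩ := Finset.mem_image.1 hY
      choose c hc using fun i => hVg _ ⟨g k i, by simpa [G0] using ⟨k, i, rfl⟩, rfl⟩
      refine ⟨∑ i, icHom A ω (a k i) * c i,
        (sum_near (icHom A ω) V hV1 hV2 hVa (a k) (fun i => connTo ℂ n d (g k i)) c _ hc).trans ?_⟩
      rw [← Finset.sum_mul]
      have h1 : ∑ i, ‖a k i‖ ≤ C := by
        have := Finset.single_le_sum (f := fun k : ι => ∑ i, ‖a k i‖)
          (fun k _ => by positivity) (Finset.mem_univ k)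
        rw [hC]; linarith
      calc (∑ i, ‖a k i‖) * (10 * (ε / (20 * C))) ≤ C * (10 * (ε / (20 * C))) := by gcongr
        _ = ε / 2 := by field_simp; ring)
  refine ⟨d, u, hu1, hu2, fun x hx => (huF x hx).trans (by linarith),
    fun h => (hui h).trans (by linarith), fun k => ?_⟩
  obtain ⟨b, hb⟩ := huG _ (Finset.mem_image_of_mem _ (Finset.mem_univ k))
  exact ⟨b, by rw [connTo_sum]; linarith⟩

/-- The approximate hypothesis of the intertwining. -/
theorem exists_unitary_inv (hω : (ω : Filter ℕ) ≤ cofinite)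
    (hno : IsEmpty (fixedAlg ω β →⋆ₐ[ℂ] ℂ)) (hHF : HalfFlipStatement)
    (F : Finset A) (G : Finset (ZLim A)) (ε : ℝ) (hε : 0 < ε) :
    ∃ u : ZLim A, star u * u = 1 ∧ u * star u = 1 ∧
      (∀ a ∈ F, ‖u * toZLim A a - toZLim A a * u‖ ≤ ε) ∧
      (∀ h, ‖zAct (β h) u - u‖ ≤ ε) ∧
      ∀ b ∈ G, ∃ a : A, ‖star u * b * u - toZLim A a‖ ≤ ε := by
  obtain ⟨n, hn⟩ := exists_common (fun m => conn A m) G (ε := ε / 8) (by positivity)
  choose x hx using hn
  choose L a g hg using fun b : G => density A (P n) (Q n) (x b b.2) (ε / 8) (by positivity)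
  obtain ⟨d, u, hu1, hu2, huF, hui, huG⟩ :=
    exists_stage_inv β hω hno hHF F L a g (ε := ε / 4) (by positivity)
  refine ⟨incl (fun m => conn A m) (n + d) u, (incl_unitary _ hu1 hu2).1,
    (incl_unitary _ hu1 hu2).2, fun y hy => ?_, fun h => ?_, fun b hb => ?_⟩
  · rw [toZLim_apply y (n + d)]
    exact norm_comm_incl (fun m => conn A m) ((huF y hy).trans (by linarith))
  · rw [zAct_incl, ← map_sub]
    exact ((norm_incl_le _ _ _).trans (hui h)).trans (by linarith)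
  · obtain ⟨b', hb'⟩ := huG ⟨b, hb⟩
    refine ⟨b', ?_⟩
    rw [toZLim_apply b' (n + d)]
    have h1 := near_incl (fun m => conn A m) (hx b hb).le (hg ⟨b, hb⟩)
    rw [← incl_connTo n _ d] at h1
    exact (near_conj (fun m => conn A m) hu1 hu2 h1 hb').trans (by linarith)

end

end Vale.Agent.P095
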