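import Vale.Agent.P101.JS.Spec

/-!
# P095: what it means that an action absorbs the trivial action on the Jiang–Su algebra
-/

namespace Vale.Agent.P095

open Vale.Agent.P101.JS

noncomputable section

/-- The maps `ι m` are injective unital *-homomorphisms of the stages into `A`, compatible with
the connecting maps and with dense union of images. -/
def IsLimitMaps (A : Type*) [CStarAlgebra A] (W : ∀ m, Frame m) (ι : ∀ m, Stage A m → A) : Prop :=
  (∀ m, ι m 1 = 1) ∧
  (∀ m (f g : Stage A m) (c : ℂ), InStage m f → InStage m g →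
    ι m (f + g) = ι m f + ι m g ∧ ι m (f * g) = ι m f * ι m g ∧
    ι m (c • f) = c • ι m f ∧ ι m (star f) = star (ι m f) ∧ (ι m f = ι m g → f = g)) ∧
  (∀ m (f : Stage A m), InStage m f → ι (m + 1) (stepMap m (W m) f) = ι m f) ∧
  ∀ (x : A) (ε : ℝ), 0 < ε → ∃ m f, InStage m f ∧ ‖x - ι m f‖ < ε

/-- `α` is an action of `G` on `A` by *-automorphisms: each `α g` is a ℂ-linear multiplicative
star preserving map, `α 1` is the identity and `α (g * h) = α g ∘ α h`. -/
def IsAction {A : Type*} [CStarAlgebra A] {G : Type*} [Group G] (α : G → A → A) : Prop :=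
  (∀ a, α 1 a = a) ∧ (∀ g h a, α (g * h) a = α g (α h a)) ∧
  ∀ g a b (c : ℂ), α g (a + b) = α g a + α g b ∧ α g (a * b) = α g a * α g b ∧
    α g (c • a) = c • α g a ∧ α g (star a) = star (α g a)

/-- A unitary cocycle for the action `α`: `u (g * h) = u g * α g (u h)`. -/
def IsUnitaryCocycle {A : Type*} [CStarAlgebra A] {G : Type*} [Group G]
    (α : G → A → A) (u : G → A) : Prop :=
  (∀ g, star (u g) * u g = 1 ∧ u g * star (u g) = 1) ∧ ∀ g h, u (g * h) = u g * α g (u h)

/-- An automorphism applied to the entries of an element of a stage. -/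
def mapStage {A : Type*} (e : A → A) {m : ℕ} (f : Stage A m) : Stage A m :=
  fun t => (f t).map e

/-- `A` is the inductive limit of the `Z_{p_m,q_m} ⊗ A` along `W`, by maps `ι m` carrying the
action `id ⊗ α g` of the stages to the perturbation `Ad (u g) ∘ α g` by a unitary `α`-cocycle `u`.
So `α` is cocycle conjugate to `α ⊗ id` on `A ⊗ Z`. -/
def IsEquivariantTensorLimit (A : Type*) [CStarAlgebra A] {G : Type*} [Group G]
    (α : G → A → A) (W : ∀ m, Frame m) : Prop :=
  (∀ m (f : Stage A m), InStage m f → InStage (m + 1) (stepMap m (W m) f)) ∧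
  ∃ (ι : ∀ m, Stage A m → A) (u : G → A), IsLimitMaps A W ι ∧ IsUnitaryCocycle α u ∧
    ∀ g m (f : Stage A m), InStage m f → ι m (mapStage (α g) f) = u g * α g (ι m f) * star (u g)

end

end Vale.Agent.P095
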