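import Vale.Agent.P101.JS.ZTensor
import Vale.Agent.P095.Main
import Vale.Agent.P095.Intertwine
import Vale.Agent.P095.Spec

/-!
# P095: from invariant subalgebras without characters to cocycle conjugacy
-/

namespace Vale.Agent.P095

open VAgent.P101 Vale.Agent.P101.JS Filter TopologicalSpace
open scoped ComplexOrder CStarAlgebra Topology

set_option linter.unusedSectionVars false
set_option linter.style.haveILetI false

noncomputable section

universe u

variable {A : Type u} [CStarAlgebra A] [PartialOrder A] [StarOrderedRing A] [Nontrivial A]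

theorem isEquivariant_of_conj {G : Type*} [Group G] (α : G →* (A ≃⋆ₐ[ℂ] A))
    (Φ : A ≃⋆ₐ[ℂ] ZLim A) (U : G → ZLim A)
    (hU : ∀ g, star (U g) * U g = 1 ∧ U g * star (U g) = 1)
    (hcoc : ∀ g h, U (g * h) = U g * zAct (α g) (U h))
    (hconj : ∀ g a, Φ (α g a) = U g * zAct (α g) (Φ a) * star (U g)) :
    IsEquivariantTensorLimit A (fun g => ⇑(α g)) frame := by
  let w : G → A := fun g => Φ.symm (U g)
  have hw : ∀ g, star (w g) * w g = 1 ∧ w g * star (w g) = 1 := fun g => by
    constructor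
    · rw [← map_star, ← map_mul, (hU g).1]; exact map_one Φ.symm
    · rw [← map_star, ← map_mul, (hU g).2]; exact map_one Φ.symm
  have hact : ∀ g y, Φ.symm (zAct (α g) y) = star (w g) * α g (Φ.symm y) * w g := fun g y => by
    have h := congrArg Φ.symm (hconj g (Φ.symm y))
    rw [Φ.symm_apply_apply, Φ.apply_symm_apply, map_mul, map_mul, map_star] at h
    rw [h, ← mul_assoc, ← mul_assoc, (hw g).1, one_mul, mul_assoc, (hw g).1, mul_one]
  obtain ⟨hstage, -⟩ := isTensorLimit_of_iso (A := A) Φ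
  refine ⟨hstage, stageMap Φ, fun g => star (w g), ⟨stageMap_one Φ, fun m f g c hf hg => ?_,
    fun _ f h => stageMap_step Φ f h, fun x _ hε => stageMap_dense Φ x hε⟩, ⟨fun g => ?_,
    fun g h => ?_⟩, fun g m f hf => ?_⟩
  · have h := inStage_ops hf hg c
    exact ⟨stageMap_add Φ hf hg h.1, stageMap_mul Φ hf hg h.2.1, stageMap_smul Φ c hf h.2.2.1,
      stageMap_star Φ hf h.2.2.2, stageMap_inj Φ hf hg⟩
  · rw [star_star]; exact ⟨(hw g).2, (hw g).1⟩
  · have e : w (g * h) = α g (w h) * w g := by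
      show Φ.symm (U (g * h)) = α g (w h) * w g
      rw [hcoc, map_mul, hact, ← mul_assoc, ← mul_assoc, (hw g).2, one_mul]
    show star (w (g * h)) = star (w g) * α g (star (w h))
    rw [e, star_mul, map_star]
  · have hmap : InStage m (mapStage (⇑(α g)) f) := by
      convert inStage_ofBlk (mapBlk (P m) (Q m) (α g : A →⋆ₐ[ℂ] A) (toBlk f hf)) using 1
      funext t; ext x y; rfl
    have e : toBlk (mapStage (⇑(α g)) f) hmap =
        mapBlk (P m) (Q m) (α g : A →⋆ₐ[ℂ] A) (toBlk f hf) := blk_ext fun _ _ _ => rfl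
    rw [stageMap_of Φ hmap, stageMap_of Φ hf, e, ← zAct_incl, hact, star_star]

theorem equivariant_of_noChar [SeparableSpace A] {G : Type*} [Group G] [Countable G]
    (α : G →* (A ≃⋆ₐ[ℂ] A))
    (hlf : ∀ K : Finset G, ∃ H : Subgroup (A ≃⋆ₐ[ℂ] A), Finite H ∧ ∀ g ∈ K, α g ∈ H)
    (ω : Ultrafilter ℕ) (hω : (ω : Filter ℕ) ≤ cofinite)
    (hno : ∀ (H : Subgroup (A ≃⋆ₐ[ℂ] A)) (_ : Finite H),
      IsEmpty (fixedAlg ω H.subtype →⋆ₐ[ℂ] ℂ)) :
    IsEquivariantTensorLimit A (fun g => ⇑(α g)) frame := by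
  obtain ⟨e, he⟩ := exists_surjective_nat G
  obtain ⟨Φ, U, hU, hcoc, hconj⟩ := intertwine_act e he (fun g a => α g a) (fun g => zAct (α g))
    (fun g h y => by rw [map_mul]; exact zAct_mul _ _ y) (toZLim A) toZLim_injective
    (fun g a => zAct_toZLim (α g) a) (fun F X K ε hε => by
      obtain ⟨H, hfin, hK⟩ := hlf K
      have : Fintype H := Fintype.ofFinite H
      obtain ⟨u, h1, h2, h3, h4, h5⟩ :=
        exists_unitary_inv H.subtype hω (hno H hfin) halfFlip F X ε hε
      exact ⟨u, h1, h2, h3, fun g hg => h4 ⟨α g, hK g hg⟩, h5⟩)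
  exact isEquivariant_of_conj α Φ U hU hcoc hconj

/-- An action as a homomorphism into the automorphism group. -/
theorem exists_hom_of_isAction {G : Type*} [Group G] {α : G → A → A} (hα : IsAction α) :
    ∃ β : G →* (A ≃⋆ₐ[ℂ] A), (fun g => ⇑(β g)) = α := by
  obtain ⟨h1, hmul, hops⟩ := hα
  let f : G → (A →⋆ₐ[ℂ] A) := fun g =>
    have hinv : ∀ b, α g (α g⁻¹ b) = b := fun b => by rw [← hmul, mul_inv_cancel, h1]
    have hone : α g 1 = 1 := by
      calc α g 1 = α g 1 * α g (α g⁻¹ 1) := by rw [hinv, mul_one]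
        _ = α g (1 * α g⁻¹ 1) := ((hops g _ _ 0).2.1).symm
        _ = 1 := by rw [one_mul, hinv]
    have hzero : α g 0 = 0 := by
      have h := (hops g 0 0 0).1
      rw [add_zero] at h
      exact add_eq_left.1 h.symm
    { toFun := α g
      map_one' := hone
      map_mul' := fun a b => (hops g a b 0).2.1
      map_zero' := hzero
      map_add' := fun a b => (hops g a b 0).1
      commutes' := fun c => by
        rw [Algebra.algebraMap_eq_smul_one, (hops g 1 1 c).2.2.1, hone]
      map_star' := fun a => (hops g a a 0).2.2.2 }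
  let β : G → (A ≃⋆ₐ[ℂ] A) := fun g => StarAlgEquiv.ofBijective (f g)
    ⟨fun a b h => by
      have h' : α g⁻¹ (α g a) = α g⁻¹ (α g b) := congrArg (α g⁻¹) h
      rwa [← hmul, ← hmul, inv_mul_cancel, h1, h1] at h',
    fun b => ⟨α g⁻¹ b, show α g (α g⁻¹ b) = b by rw [← hmul, mul_inv_cancel, h1]⟩⟩
  exact ⟨MonoidHom.mk' β fun g h => StarAlgEquiv.ext fun a => hmul g h a, rfl⟩

/-- A finite image of a finitely generated subgroup is a finite group of automorphisms. -/
theorem exists_finite_image {G : Type*} [Group G] (β : G →* (A ≃⋆ₐ[ℂ] A))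
    (h : ∀ K : Finset G,
      ((fun g => ⇑(β g)) '' (Subgroup.closure (K : Set G) : Set G)).Finite) (K : Finset G) :
    ∃ H : Subgroup (A ≃⋆ₐ[ℂ] A), Finite H ∧ ∀ g ∈ K, β g ∈ H := by
  refine ⟨(Subgroup.closure (K : Set G)).map β, ?_,
    fun g hg => ⟨g, Subgroup.subset_closure hg, rfl⟩⟩
  have : ((Subgroup.closure (K : Set G)).map β : Set (A ≃⋆ₐ[ℂ] A)).Finite := by
    refine Set.Finite.of_finite_image (f := DFunLike.coe) ?_ DFunLike.coe_injective.injOn
    rw [Subgroup.coe_map, Set.image_image]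
    exact h K
  exact this.to_subtype

end

end Vale.Agent.P095
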