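import Mathlib

/-!
# P095: no characters on the fixed points of a finite group (core lemma)

If a finite group acts on a unital C*-algebra `F` and `F` contains countably many unital
copies of an algebra `D` without characters, such that all translates of different copies
commute, then the fixed point algebra has no characters.
-/

noncomputable section

open scoped InnerProductSpace ComplexOrder
open Filter Topology

namespace Vale.Agent.P095.NoChar


theorem powerSums_zero {I : Type*} [Fintype I] (c : I → ℂ)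
    (h : ∀ m : ℕ, ∑ p, c p ^ (m + 1) = 0) (p : I) : c p = 0 := by
  classical
  by_contra hp
  let s := (Finset.univ.image c).erase (c p)
  let q : Polynomial ℂ := ∏ μ ∈ s, (Polynomial.X - Polynomial.C μ)
  have hq : q.eval (c p) ≠ 0 := by
    rw [Polynomial.eval_prod, Finset.prod_ne_zero_iff]
    intro μ hμ
    simpa [sub_ne_zero] using (Finset.ne_of_mem_erase hμ).symm
  have hz : ∑ r, c r * q.eval (c r) = 0 := by
    simp only [Polynomial.eval_eq_sum_range, Finset.mul_sum]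
    rw [Finset.sum_comm]
    refine Finset.sum_eq_zero fun n _ => ?_
    calc ∑ r, c r * (q.coeff n * c r ^ n) = q.coeff n * ∑ r, c r ^ (n + 1) := by
          rw [Finset.mul_sum]
          exact Finset.sum_congr rfl fun r _ => by ring
      _ = 0 := by rw [h n, mul_zero]
  have hsplit : ∀ r, c r * q.eval (c r) = if c r = c p then c p * q.eval (c p) else 0 := by
    intro r
    by_cases hr : c r = c p
    · simp [hr]
    · have : q.eval (c r) = 0 := by
        rw [Polynomial.eval_prod]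
        exact Finset.prod_eq_zero (i := c r) (by simp [s, hr]) (by simp)
      simp [hr, this]
  rw [Finset.sum_congr rfl fun r _ => hsplit r] at hz
  simp only [Finset.sum_ite, Finset.sum_const_zero, add_zero, Finset.sum_const,
    nsmul_eq_mul, mul_eq_zero, hp, hq, or_self, or_false, Nat.cast_eq_zero,
    Finset.card_eq_zero] at hz
  simpa using Finset.ext_iff.1 hz p

theorem jordan_mul {D : Type*} [Ring D] [Algebra ℂ D] (ψ : D →ₗ[ℂ] ℂ)
    (h : ∀ x, ψ (x * x) = ψ x ^ 2) (a b : D) : ψ (a * b) = ψ a * ψ b := by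
  have hj : ∀ x y, ψ (x * y) + ψ (y * x) = 2 * ψ x * ψ y := by
    intro x y
    have := h (x + y)
    simp only [add_mul, mul_add, map_add, h x, h y] at this
    linear_combination this
  have h3 : ∀ x y, ψ (x * y * x) = ψ x ^ 2 * ψ y := by
    intro x y
    have h1 := hj (x * y + y * x) x
    have h2 := hj (x * x) y
    simp only [add_mul, mul_add, map_add, hj x y, ← mul_assoc, h x] at h1 h2
    linear_combination (1 / 2 : ℂ) * h1 - (1 / 2 : ℂ) * h2
  have hd := h (a * b - b * a)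
  have e : (a * b - b * a) * (a * b - b * a) =
      a * b * (a * b) + b * a * (b * a) - a * (b * b) * a - b * (a * a) * b := by
    noncomm_ring
  rw [e] at hd
  simp only [map_add, map_sub, h, h3] at hd
  have hs := hj a b
  have : (ψ (a * b) - ψ a * ψ b) ^ 2 = 0 := by
    linear_combination (-1 / 2 : ℂ) * hd + (ψ (a * b)) * hs
  simpa [sub_eq_zero] using this

section weak

variable {H : Type*} [NormedAddCommGroup H] [InnerProductSpace ℂ H] [CompleteSpace H]

theorem exists_wlim (A : ℕ → H →L[ℂ] H) (C : ℝ) (hC : ∀ i, ‖A i‖ ≤ C) :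
    ∃ T : H →L[ℂ] H, ∀ u v, Tendsto (fun i => ⟪u, A i v⟫_ℂ) (Filter.hyperfilter ℕ) (𝓝 ⟪u, T v⟫_ℂ) := by
  have hC0 : 0 ≤ C := (norm_nonneg _).trans (hC 0)
  have hb : ∀ i u v, ‖⟪A i v, u⟫_ℂ‖ ≤ C * ‖v‖ * ‖u‖ := fun i u v =>
    (norm_inner_le_norm _ _).trans
      (mul_le_mul_of_nonneg_right
        (((A i).le_opNorm v).trans (mul_le_mul_of_nonneg_right (hC i) (norm_nonneg _)))
        (norm_nonneg _))
  have hex : ∀ v u, ∃ l : ℂ, Tendsto (fun i => ⟪A i v, u⟫_ℂ) (Filter.hyperfilter ℕ) (𝓝 l) := by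
    intro v u
    obtain ⟨l, _, hl⟩ := (isCompact_closedBall (0 : ℂ) (C * ‖v‖ * ‖u‖)).ultrafilter_le_nhds
      (((Filter.hyperfilter ℕ)).map fun i => ⟪A i v, u⟫_ℂ)
      (Filter.le_principal_iff.2 (Filter.mem_map.2
        (Filter.Eventually.of_forall fun i => by simpa using hb i u v)))
    exact ⟨l, hl⟩
  choose l hl using hex
  let L : H → H →L[ℂ] ℂ := fun v => LinearMap.mkContinuous
    { toFun := l v
      map_add' := fun x y => tendsto_nhds_unique (hl v (x + y))
        (by simpa [inner_add_right] using (hl v x).add (hl v y))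
      map_smul' := fun c x => tendsto_nhds_unique (hl v (c • x))
        (by simpa [inner_smul_right] using (hl v x).const_mul c) }
    (C * ‖v‖)
    (fun u => le_of_tendsto' (hl v u).norm fun i => hb i u v)
  let w : H → H := fun v => (InnerProductSpace.toDual ℂ H).symm (L v)
  have hw : ∀ v u, Tendsto (fun i => ⟪A i v, u⟫_ℂ) (Filter.hyperfilter ℕ) (𝓝 ⟪w v, u⟫_ℂ) := by
    intro v u
    simpa [w, L] using hl v u
  refine ⟨LinearMap.mkContinuous
    { toFun := w
      map_add' := fun x y => ext_inner_right ℂ fun u => tendsto_nhds_unique (hw (x + y) u)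
        (by simpa [inner_add_left] using (hw x u).add (hw y u))
      map_smul' := fun c x => ext_inner_right ℂ fun u => tendsto_nhds_unique (hw (c • x) u)
        (by simpa [inner_smul_left, mul_comm] using (hw x u).const_mul (starRingEnd ℂ c)) }
    C ?_, ?_⟩
  · intro v
    show ‖w v‖ ≤ C * ‖v‖
    simp only [w, LinearIsometryEquiv.norm_map]
    exact LinearMap.mkContinuous_norm_le _ (mul_nonneg hC0 (norm_nonneg _)) _
  · intro u v
    have := (Complex.continuous_conj.tendsto _).comp (hw v u)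
    simpa [Function.comp_def, inner_conj_symm] using this

theorem tendsto_mid {A : ℕ → H →L[ℂ] H} {T : H →L[ℂ] H}
    (hA : ∀ u v, Tendsto (fun i => ⟪u, A i v⟫_ℂ) (Filter.hyperfilter ℕ) (𝓝 ⟪u, T v⟫_ℂ)) (P : H →L[ℂ] H) (u v : H) :
    Tendsto (fun i => ⟪u, P (A i v)⟫_ℂ) (Filter.hyperfilter ℕ) (𝓝 ⟪u, P (T v)⟫_ℂ) := by
  simpa [ContinuousLinearMap.adjoint_inner_left] using hA (ContinuousLinearMap.adjoint P u) v

omit [CompleteSpace H] in
theorem wlim_unique {A : ℕ → H →L[ℂ] H} {S T : H →L[ℂ] H}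
    (hS : ∀ u v, Tendsto (fun i => ⟪u, A i v⟫_ℂ) (Filter.hyperfilter ℕ) (𝓝 ⟪u, S v⟫_ℂ))
    (hT : ∀ u v, Tendsto (fun i => ⟪u, A i v⟫_ℂ) (Filter.hyperfilter ℕ) (𝓝 ⟪u, T v⟫_ℂ)) : S = T :=
  ContinuousLinearMap.ext fun v => ext_inner_left ℂ fun u =>
    tendsto_nhds_unique (hS u v) (hT u v)

theorem wlim_commute {A : ℕ → H →L[ℂ] H} {T r : H →L[ℂ] H}
    (hA : ∀ u v, Tendsto (fun i => ⟪u, A i v⟫_ℂ) (Filter.hyperfilter ℕ) (𝓝 ⟪u, T v⟫_ℂ))
    (h : ∀ᶠ i in ((Filter.hyperfilter ℕ) : Filter ℕ), r * A i = A i * r) : r * T = T * r :=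
  ContinuousLinearMap.ext fun v => ext_inner_left ℂ fun u => by
    refine tendsto_nhds_unique ((tendsto_mid hA r u v).congr' ?_) (hA u (r v))
    filter_upwards [h] with i hi
    exact congrArg (fun S : H →L[ℂ] H => ⟪u, S v⟫_ℂ) hi

theorem wlim_star {A : ℕ → H →L[ℂ] H} {T : H →L[ℂ] H}
    (hA : ∀ u v, Tendsto (fun i => ⟪u, A i v⟫_ℂ) (Filter.hyperfilter ℕ) (𝓝 ⟪u, T v⟫_ℂ)) (u v : H) :
    Tendsto (fun i => ⟪u, star (A i) v⟫_ℂ) (Filter.hyperfilter ℕ) (𝓝 ⟪u, star T v⟫_ℂ) := by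
  simpa [Function.comp_def, ContinuousLinearMap.star_eq_adjoint,
    ContinuousLinearMap.adjoint_inner_right, inner_conj_symm] using
    (Complex.continuous_conj.tendsto _).comp (hA v u)

end weak

section main

variable {G : Type*} [Group G] [Fintype G] {F : Type*} [CStarAlgebra F]

/-- The fixed point algebra. -/
def fixedSub (α : G → F →⋆ₐ[ℂ] F) : StarSubalgebra ℂ F :=
  ⨅ g : G, StarAlgHom.equalizer (α g) (StarAlgHom.id ℂ F)

omit [Group G] [Fintype G] in
theorem mem_fixedSub {α : G → F →⋆ₐ[ℂ] F} {x : F} : x ∈ fixedSub α ↔ ∀ g, α g x = x := by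
  simp [fixedSub, StarSubalgebra.mem_iInf]

variable {H : Type*} [NormedAddCommGroup H] [InnerProductSpace ℂ H] [CompleteSpace H]
  {D : Type*} [CStarAlgebra D]

theorem tendsto_pair {a b : ℕ → H →L[ℂ] H} {za zb wab : H →L[ℂ] H}
    (ha : ∀ u v, Tendsto (fun i => ⟪u, a i v⟫_ℂ) (Filter.hyperfilter ℕ) (𝓝 ⟪u, za v⟫_ℂ))
    (hb : ∀ u v, Tendsto (fun i => ⟪u, b i v⟫_ℂ) (Filter.hyperfilter ℕ) (𝓝 ⟪u, zb v⟫_ℂ))
    (hab : ∀ u v, Tendsto (fun i => ⟪u, (a i * b i) v⟫_ℂ) (Filter.hyperfilter ℕ) (𝓝 ⟪u, wab v⟫_ℂ))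
    (P : H →L[ℂ] H) (u v : H) :
    ∃ f : ℕ → ℂ, (∀ i, Tendsto (fun j => ⟪u, P (((a i - a j) * (b i - b j)) v)⟫_ℂ) (Filter.hyperfilter ℕ) (𝓝 (f i))) ∧
      Tendsto f (Filter.hyperfilter ℕ) (𝓝 (2 * ⟪u, P ((wab - za * zb) v)⟫_ℂ)) := by
  refine ⟨fun i => ⟪u, P ((a i * b i) v)⟫_ℂ - ⟪u, P (a i (zb v))⟫_ℂ - ⟪u, P (za (b i v))⟫_ℂ
    + ⟪u, P (wab v)⟫_ℂ, fun i => ?_, ?_⟩
  · have := (((tendsto_const_nhds (x := ⟪u, P ((a i * b i) v)⟫_ℂ)).sub
      (tendsto_mid hb (P * a i) u v)).sub (tendsto_mid ha P u (b i v))).add (tendsto_mid hab P u v)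
    refine this.congr fun j => ?_
    simp only [mul_apply_eq_comp, sub_apply, map_sub,
      inner_sub_right]
    ring
  · have := (((tendsto_mid hab P u v).sub (tendsto_mid ha P u (zb v))).sub
      (tendsto_mid hb (P * za) u v)).add_const ⟪u, P (wab v)⟫_ℂ
    convert this using 2
    · rfl
    rw [show (wab - za * zb) v = wab v - za (zb v) from rfl,
      show (P * za) (zb v) = P (za (zb v)) from rfl, map_sub, inner_sub_right]
    ring

/-- All power sums of the covariance operators kill the vector `ξ`. -/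
theorem moments_zero (α : G → F →⋆ₐ[ℂ] F) (h1 : ∀ x, α 1 x = x) (ι : ℕ → D →⋆ₐ[ℂ] F)
    (hcomm : ∀ i j, i ≠ j → ∀ g h a b, Commute (α g (ι i a)) (α h (ι j b)))
    (π : F →⋆ₐ[ℂ] (H →L[ℂ] H)) (ξ : H) (N : ℂ)
    (hev : ∀ y, π (∑ g, α g y) ξ = (N * ⟪ξ, π y ξ⟫_ℂ) • ξ)
    (a : D) (z : G → H →L[ℂ] H) (w : G → G → H →L[ℂ] H)
    (hz : ∀ g u v, Tendsto (fun i => ⟪u, π (α g (ι i a)) v⟫_ℂ) (Filter.hyperfilter ℕ) (𝓝 ⟪u, z g v⟫_ℂ))
    (hw : ∀ g h u v, Tendsto (fun i => ⟪u, (π (α g (ι i a)) * π (α h (ι i a))) v⟫_ℂ) (Filter.hyperfilter ℕ)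
      (𝓝 ⟪u, w g h v⟫_ℂ)) (m : ℕ) :
    ∑ g, ∑ h, ((w g h - z g * z h) ^ (m + 1)) ξ = 0 := by
  have hne : ∀ j, ∀ᶠ i in ((Filter.hyperfilter ℕ) : Filter ℕ), i ≠ j := fun j =>
    Filter.hyperfilter_le_cofinite (Set.finite_singleton j).compl_mem_cofinite
  let C : G → G → H →L[ℂ] H := fun g h => w g h - z g * z h
  suffices key : ∀ m x, (∀ᶠ i in ((Filter.hyperfilter ℕ) : Filter ℕ), ∀ g h d, Commute (α g x) (α h (ι i d))) →
      ∀ u, ∑ g, ∑ h, ⟪u, π (α g x * α h x) ((C g h ^ (m + 1)) ξ)⟫_ℂ = 0 by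
    refine ext_inner_left ℂ fun u => ?_
    simpa [C, inner_sum] using
      key m 1 (Filter.Eventually.of_forall fun i g h d => by simp) u
  clear m
  have step : ∀ m x, (∀ᶠ i in ((Filter.hyperfilter ℕ) : Filter ℕ), ∀ g h d, Commute (α g x) (α h (ι i d))) →
      ∀ (u : H) (val : ℕ → ℕ → ℂ) (L : ℕ → ℂ),
      (∀ᶠ i in ((Filter.hyperfilter ℕ) : Filter ℕ), ∀ᶠ j in ((Filter.hyperfilter ℕ) : Filter ℕ),
        ∑ g, ∑ h, ⟪u, π (α g (x * (ι i a - ι j a)) * α h (x * (ι i a - ι j a)))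
          ((C g h ^ m) ξ)⟫_ℂ = val i j) →
      (∀ i, Tendsto (val i) (Filter.hyperfilter ℕ) (𝓝 (L i))) → Tendsto L (Filter.hyperfilter ℕ) (𝓝 0) →
      ∑ g, ∑ h, ⟪u, π (α g x * α h x) ((C g h ^ (m + 1)) ξ)⟫_ℂ = 0 := by
    intro m x hx u val L hval hL hL0
    choose f hf hfl using fun g h => tendsto_pair (hz g) (hz h) (hw g h)
      (π (α g x * α h x)) u ((C g h ^ m) ξ)
    have hsum := tendsto_finsetSum Finset.univ fun g _ =>
      tendsto_finsetSum Finset.univ fun h _ => hfl g h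
    have heq : (fun i => ∑ g, ∑ h, f g h i) =ᶠ[((Filter.hyperfilter ℕ) : Filter ℕ)] L := by
      filter_upwards [hval, hx] with i hi hxi
      refine tendsto_nhds_unique
        ((tendsto_finsetSum _ fun g _ => tendsto_finsetSum _ fun h _ => hf g h i).congr' ?_) (hL i)
      filter_upwards [hi, hx] with j hj hxj
      rw [← hj]
      refine Finset.sum_congr rfl fun g _ => Finset.sum_congr rfl fun h _ => ?_
      have hyx : Commute (α g (ι i a - ι j a)) (α h x) := by
        rw [map_sub]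
        exact ((hxi h g a).symm).sub_left ((hxj h g a).symm)
      have e : α g (x * (ι i a - ι j a)) * α h (x * (ι i a - ι j a)) =
          α g x * α h x * (α g (ι i a - ι j a) * α h (ι i a - ι j a)) := by
        simp only [map_mul]
        rw [mul_assoc, ← mul_assoc (α g (ι i a - ι j a)), hyx.eq]
        simp only [mul_assoc]
      rw [e]
      simp only [map_mul, map_sub, mul_apply_eq_comp]
    have h2 := tendsto_nhds_unique (hsum.congr' heq) hL0
    simpa [← Finset.mul_sum, C, pow_succ'] using h2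
  intro m
  induction m with
  | zero =>
    intro x hx u
    have hlin : ∀ i j, ⟪ξ, π (x * (ι i a - ι j a)) ξ⟫_ℂ =
        ⟪ξ, π x (π (ι i a) ξ)⟫_ℂ - ⟪ξ, π x (π (ι j a) ξ)⟫_ℂ := fun i j => by
      simp [mul_sub]
    have hz1 : Tendsto (fun i => ⟪ξ, π x (π (ι i a) ξ)⟫_ℂ) (Filter.hyperfilter ℕ) (𝓝 ⟪ξ, π x (z 1 ξ)⟫_ℂ) := by
      simpa [h1] using tendsto_mid (hz 1) (π x) ξ ξ
    refine step 0 x hx u
      (fun i j => (N * ⟪ξ, π (x * (ι i a - ι j a)) ξ⟫_ℂ) ^ 2 * ⟪u, ξ⟫_ℂ)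
      (fun i => (N * (⟪ξ, π x (π (ι i a) ξ)⟫_ℂ - ⟪ξ, π x (z 1 ξ)⟫_ℂ)) ^ 2 * ⟪u, ξ⟫_ℂ)
      (Filter.Eventually.of_forall fun i => Filter.Eventually.of_forall fun j => ?_)
      (fun i => ?_) ?_
    · generalize x * (ι i a - ι j a) = y
      have e : ∀ g h, (π (α g y * α h y) ((C g h ^ 0) ξ)) = π (α g y * α h y) ξ := fun g h => by
        simp
      simp only [e, ← inner_sum, ← sum_apply, ← map_sum,
        ← Finset.mul_sum, ← Finset.sum_mul]
      rw [map_mul, mul_apply_eq_comp, hev, map_smul, hev, smul_smul,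
        inner_smul_right, sq]
    · simp only [hlin]
      exact (((tendsto_const_nhds.sub hz1).const_mul N).pow 2).mul_const _
    · simpa using (((hz1.sub_const ⟪ξ, π x (z 1 ξ)⟫_ℂ).const_mul N).pow 2).mul_const ⟪u, ξ⟫_ℂ
  | succ m ih =>
    intro x hx u
    refine step (m + 1) x hx u (fun _ _ => 0) (fun _ => 0) ?_
      (fun _ => tendsto_const_nhds) tendsto_const_nhds
    filter_upwards [hx] with i hi
    filter_upwards [hx] with j hj
    refine ih _ ?_ u
    filter_upwards [hx, hne i, hne j] with k hk hki hkj g h d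
    rw [map_mul, map_sub]
    exact (hk g h d).mul_left
      ((hcomm i k (Ne.symm hki) g h a d).sub_left (hcomm j k (Ne.symm hkj) g h a d))

/-- The operator-theoretic core. -/
theorem no_eigenvector (α : G → F →⋆ₐ[ℂ] F) (h1 : ∀ x, α 1 x = x) (ι : ℕ → D →⋆ₐ[ℂ] F)
    (hcomm : ∀ i j, i ≠ j → ∀ g h a b, Commute (α g (ι i a)) (α h (ι j b)))
    (hD : ∀ _ψ : D →⋆ₐ[ℂ] ℂ, False)
    (π : F →⋆ₐ[ℂ] (H →L[ℂ] H)) (ξ : H) (hξ : ξ ≠ 0) (N : ℂ)
    (hev : ∀ y, π (∑ g, α g y) ξ = (N * ⟪ξ, π y ξ⟫_ℂ) • ξ) : False := by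
  have hbd : ∀ g i d, ‖π (α g (ι i d))‖ ≤ ‖d‖ := fun g i d =>
    ((NonUnitalStarAlgHom.norm_apply_le π _).trans
      (NonUnitalStarAlgHom.norm_apply_le (α g) _)).trans (NonUnitalStarAlgHom.norm_apply_le (ι i) d)
  choose z hz using fun g d => exists_wlim (fun i => π (α g (ι i d))) ‖d‖ fun i => hbd g i d
  choose w hw using fun g h d => exists_wlim (fun i => π (α g (ι i d)) * π (α h (ι i d)))
    (‖d‖ * ‖d‖) fun i => (norm_mul_le _ _).trans
      (mul_le_mul (hbd g i d) (hbd h i d) (norm_nonneg _) (norm_nonneg _))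
  let R : Set (H →L[ℂ] H) := Set.range fun p : G × ℕ × D => π (α p.1 (ι p.2.1 p.2.2))
  let C₁ := StarSubalgebra.centralizer ℂ R
  let K := C₁ ⊓ StarSubalgebra.centralizer ℂ (C₁ : Set (H →L[ℂ] H))
  have hne : ∀ j, ∀ᶠ i in ((Filter.hyperfilter ℕ) : Filter ℕ), i ≠ j := fun j =>
    Filter.hyperfilter_le_cofinite (Set.finite_singleton j).compl_mem_cofinite
  have hK : ∀ (T : H →L[ℂ] H) (A : ℕ → H →L[ℂ] H),
      (∀ u v, Tendsto (fun i => ⟪u, A i v⟫_ℂ) (Filter.hyperfilter ℕ) (𝓝 ⟪u, T v⟫_ℂ)) →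
      (∀ h j b, ∀ i ≠ j, π (α h (ι j b)) * A i = A i * π (α h (ι j b))) →
      (∀ c ∈ C₁, ∀ i, c * A i = A i * c) → T ∈ K := by
    intro T A hA hA1 hA2
    refine ⟨StarSubalgebra.mem_centralizer_iff ℂ |>.2 ?_,
      StarSubalgebra.mem_centralizer_iff ℂ |>.2 fun c hc => ?_⟩
    · rintro r ⟨⟨h, j, b⟩, rfl⟩
      have key : ∀ b, π (α h (ι j b)) * T = T * π (α h (ι j b)) := fun b =>
        wlim_commute hA ((hne j).mono fun i hi => hA1 h j b i hi)
      refine ⟨key b, ?_⟩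
      simpa [← map_star] using key (star b)
    · exact ⟨wlim_commute hA (Filter.Eventually.of_forall (hA2 c hc)),
        wlim_commute hA (Filter.Eventually.of_forall (hA2 _ (star_mem hc)))⟩
  have hC1 : ∀ c ∈ C₁, ∀ g i d, c * π (α g (ι i d)) = π (α g (ι i d)) * c := fun c hc g i d =>
    ((StarSubalgebra.mem_centralizer_iff ℂ).1 hc _ ⟨(g, i, d), rfl⟩).1.symm
  have hzK : ∀ g d, z g d ∈ K := fun g d => hK _ _ (hz g d)
    (fun h j b i hi => ((hcomm j i (Ne.symm hi) h g b d).map π).eq)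
    (fun c hc i => hC1 c hc g i d)
  have hwK : ∀ g h d, w g h d ∈ K := fun g h d => hK _ _ (hw g h d)
    (fun k j b i hi => (((hcomm j i (Ne.symm hi) k g b d).map π).mul_right
      ((hcomm j i (Ne.symm hi) k h b d).map π)).eq)
    (fun c hc i => ((show Commute c _ from hC1 c hc g i d).mul_right (hC1 c hc h i d)).eq)
  have : IsClosed (K : Set (H →L[ℂ] H)) := by
    simp only [K, C₁, StarSubalgebra.coe_inf, StarSubalgebra.coe_centralizer]
    exact (Set.isClosed_centralizer _).inter (Set.isClosed_centralizer _)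
  let : CommCStarAlgebra K :=
    { (inferInstance : CStarAlgebra K) with
      mul_comm := fun x y => Subtype.ext
        ((StarSubalgebra.mem_centralizer_iff ℂ).1 y.2.2 _ x.2.1).1 }
  let J : Ideal K :=
    { carrier := {T | (T : H →L[ℂ] H) ξ = 0}
      add_mem' := fun {a b} ha hb => by simp_all
      zero_mem' := by simp
      smul_mem' := fun c x hx => by simp_all }
  have hJ : J ≠ ⊤ := fun h => hξ (by
    have : (1 : K) ∈ J := h ▸ Submodule.mem_top
    simpa [J] using this)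
  obtain ⟨M, hM, hJM⟩ := J.exists_le_maximal hJ
  let ω := M.toCharacterSpace
  let Z : G → D → K := fun g d => ⟨z g d, hzK g d⟩
  let W : G → G → D → K := fun g h d => ⟨w g h d, hwK g h d⟩
  have hC : ∀ a g h, ω (W g h a) = ω (Z g a) * ω (Z h a) := by
    intro a g h
    have := powerSums_zero (fun p : G × G => ω (W p.1 p.2 a - Z p.1 a * Z p.2 a))
      (fun m => by
        have hm : (∑ g, ∑ h, (W g h a - Z g a * Z h a) ^ (m + 1)) ∈ J := by
          show ((∑ g, ∑ h, (W g h a - Z g a * Z h a) ^ (m + 1) : K) : H →L[ℂ] H) ξ = 0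
          simpa [W, Z] using moments_zero α h1 ι hcomm π ξ N hev a _ _
            (fun g => hz g a) (fun g h => hw g h a) m
        simpa [ω, Fintype.sum_prod_type, map_sum, map_pow] using
          Ideal.toCharacterSpace_apply_eq_zero_of_mem M (hJM hm)) (g, h)
    simpa [sub_eq_zero] using this
  have hlinz : ∀ (c : ℂ) a b, Z 1 (c • a + b) = c • Z 1 a + Z 1 b := fun c a b =>
    Subtype.ext (wlim_unique (hz 1 (c • a + b)) fun u v => by
      simpa [Z, inner_add_right, inner_smul_right] using ((hz 1 a u v).const_mul c).add (hz 1 b u v))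
  have hz0 : Z 1 0 = 0 := Subtype.ext (wlim_unique (hz 1 0) fun u v => by simp)
  let ψ : D →ₗ[ℂ] ℂ :=
    { toFun := fun d => ω (Z 1 d)
      map_add' := fun a b => by
        simpa [one_smul] using congrArg ω (hlinz 1 a b)
      map_smul' := fun c a => by
        simpa [hz0] using congrArg ω (hlinz c a 0) }
  have hsq : ∀ a, ψ (a * a) = ψ a ^ 2 := by
    intro a
    have : Z 1 (a * a) = W 1 1 a := Subtype.ext (wlim_unique (hz 1 (a * a)) fun u v => by
      simpa [W, h1] using hw 1 1 a u v)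
    show ω (Z 1 (a * a)) = ω (Z 1 a) ^ 2
    rw [this, hC, sq]
  have hone : Z 1 1 = 1 := Subtype.ext (wlim_unique (hz 1 1) fun u v => by simp)
  have hstar : ∀ a, Z 1 (star a) = star (Z 1 a) := fun a =>
    Subtype.ext (wlim_unique (hz 1 (star a)) fun u v => by
      simpa [Z, map_star] using wlim_star (hz 1 a) u v)
  have hψ1 : ψ 1 = 1 := by simp [ψ, hone]
  exact hD
    { toFun := ψ
      map_one' := hψ1
      map_mul' := jordan_mul ψ hsq
      map_zero' := map_zero ψ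
      map_add' := map_add ψ
      commutes' := fun r => by
        rw [Algebra.algebraMap_eq_smul_one, map_smul, hψ1]
        simp
      map_star' := fun a => by
        show ω (Z 1 (star a)) = star (ω (Z 1 a))
        rw [hstar, map_star] }

omit [Fintype G] in
/-- The fixed point algebra of a finite group action on a C*-algebra has no characters as soon as
the algebra contains infinitely many copies of an algebra without characters whose translates
pairwise commute. -/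
theorem no_character [Finite G] (α : G → F →⋆ₐ[ℂ] F) (h1 : ∀ x, α 1 x = x)
    (hmul : ∀ g h x, α (g * h) x = α g (α h x))
    (ι : ℕ → D →⋆ₐ[ℂ] F)
    (hcomm : ∀ i j, i ≠ j → ∀ g h a b, Commute (α g (ι i a)) (α h (ι j b)))
    (hD : ∀ _ψ : D →⋆ₐ[ℂ] ℂ, False) (χ : fixedSub α →⋆ₐ[ℂ] ℂ) : False := by
  classical
  have := Fintype.ofFinite G
  let : PartialOrder F := CStarAlgebra.spectralOrder F
  have : StarOrderedRing F := CStarAlgebra.spectralOrderedRing F
  have hS : ∀ x, (∑ g, α g x) ∈ fixedSub α := fun x => mem_fixedSub.2 fun g => by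
    rw [map_sum]
    simp only [← hmul]
    exact Fintype.sum_equiv (Equiv.mulLeft g) _ _ fun h => rfl
  set N : ℂ := (Fintype.card G : ℂ) with hN
  have hN0 : N ≠ 0 := by simp [hN]
  let φ₀ : F →ₗ[ℂ] ℂ :=
    { toFun := fun x => N⁻¹ * χ ⟨_, hS x⟩
      map_add' := fun x y => by
        rw [← mul_add, ← map_add]
        congr 2
        exact Subtype.ext (by simp [Finset.sum_add_distrib])
      map_smul' := fun c x => by
        have : (⟨_, hS (c • x)⟩ : fixedSub α) = c • ⟨_, hS x⟩ :=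
          Subtype.ext (by simp [Finset.smul_sum])
        rw [this, map_smul, smul_eq_mul, RingHom.id_apply, smul_eq_mul]
        ring }
  have hφ₀ : ∀ x, N * φ₀ x = χ ⟨_, hS x⟩ := fun x => mul_inv_cancel_left₀ hN0 _
  have hfix : ∀ T : fixedSub α, φ₀ T = χ T := by
    intro T
    show N⁻¹ * χ ⟨_, hS (T : F)⟩ = χ T
    have : (⟨_, hS (T : F)⟩ : fixedSub α) = N • T := Subtype.ext (by
      simp [hN, mem_fixedSub.1 T.2, ← Nat.cast_smul_eq_nsmul ℂ])
    rw [this, map_smul, smul_eq_mul, ← mul_assoc, inv_mul_cancel₀ hN0, one_mul]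
  have hpos : ∀ x, 0 ≤ x → 0 ≤ φ₀ x := by
    intro x hx
    show 0 ≤ N⁻¹ * χ ⟨_, hS x⟩
    have hy : 0 ≤ ∑ g, α g x := Finset.sum_nonneg fun g _ => map_nonneg (α g) hx
    have hfs : CFC.sqrt (∑ g, α g x) ∈ fixedSub α := mem_fixedSub.2 fun g =>
      (CFC.sqrt_unique (by
        rw [← map_mul, CFC.sqrt_mul_sqrt_self _ hy, mem_fixedSub.1 (hS x) g])
        (map_nonneg (α g) (CFC.sqrt_nonneg _))).symm
    have hsq : (⟨_, hS x⟩ : fixedSub α) = star ⟨_, hfs⟩ * ⟨_, hfs⟩ := Subtype.ext (by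
      simp [(CFC.sqrt_nonneg (∑ g, α g x)).star_eq, CFC.sqrt_mul_sqrt_self _ hy])
    rw [hsq, map_mul, map_star]
    exact mul_nonneg (by simp [hN]) (star_mul_self_nonneg _)
  let φ : F →ₚ[ℂ] ℂ := PositiveLinearMap.mk₀ φ₀ hpos
  have hφ : ∀ x, φ x = φ₀ x := fun x => rfl
  let ξ : φ.GNS := ((φ.toPreGNS 1 : φ.PreGNS) : φ.GNS)
  have hπξ : ∀ x, φ.gnsStarAlgHom x ξ = ((φ.toPreGNS x : φ.PreGNS) : φ.GNS) := fun x => by
    simp [ξ]
  have hinner : ∀ x, ⟪ξ, φ.gnsStarAlgHom x ξ⟫_ℂ = φ₀ x := fun x => by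
    rw [hπξ]
    simp [ξ, UniformSpace.Completion.inner_coe, PositiveLinearMap.preGNS_inner_def, hφ]
  have hξ : ξ ≠ 0 := by
    intro h
    have h1' := hinner 1
    have h2 := hfix 1
    simp [h] at h1'
    simp [← h1'] at h2
  have hfixev : ∀ T : fixedSub α, φ.gnsStarAlgHom T ξ = χ T • ξ := by
    intro T
    have h0 : χ (star (T - χ T • 1) * (T - χ T • 1)) = 0 := by simp
    rw [← hfix] at h0
    have h0' := congrArg (fun c : ℂ => Real.sqrt c.re) h0
    have hz : ‖φ.toPreGNS ((T : F) - χ T • 1)‖ = 0 := by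
      rw [PositiveLinearMap.preGNS_norm_def]
      simpa [hφ] using h0'
    rw [map_sub, map_smul] at hz
    rw [hπξ, ← sub_eq_zero, ← norm_eq_zero]
    simpa [ξ, ← UniformSpace.Completion.coe_smul, ← UniformSpace.Completion.coe_sub,
      UniformSpace.Completion.norm_coe] using hz
  exact no_eigenvector α h1 ι hcomm hD φ.gnsStarAlgHom ξ hξ N fun y => by
    rw [hinner, hφ₀]
    exact hfixev ⟨_, hS y⟩

omit [Group G] [Fintype G] in
theorem isClosed_fixedSub (α : G → F →⋆ₐ[ℂ] F) : IsClosed (fixedSub α : Set F) := by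
  have : (fixedSub α : Set F) = ⋂ g, {x | α g x = x} := by
    ext x
    simp [mem_fixedSub]
  rw [this]
  exact isClosed_iInter fun g => isClosed_eq (AddMonoidHomClass.continuous_of_bound (α g) 1
    fun x => by simpa using NonUnitalStarAlgHom.norm_apply_le (α g) x) continuous_id

omit [Fintype G] in
/-- The same statement for not necessarily unital characters. -/
theorem noChar_fixedSub [Finite G] (α : G → F →⋆ₐ[ℂ] F) (h1 : ∀ x, α 1 x = x)
    (hmul : ∀ g h x, α (g * h) x = α g (α h x)) (ι : ℕ → D →⋆ₐ[ℂ] F)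
    (hcomm : ∀ i j, i ≠ j → ∀ g h a b, Commute (α g (ι i a)) (α h (ι j b)))
    (hD : ∀ ψ : D →⋆ₙₐ[ℂ] ℂ, ψ = 0) (χ : fixedSub α →⋆ₙₐ[ℂ] ℂ) : χ = 0 := by
  by_contra hne
  have hχ1 : χ 1 = 1 := by
    obtain ⟨x, hx⟩ : ∃ x, χ x ≠ 0 := by
      by_contra! h
      exact hne (NonUnitalStarAlgHom.ext h)
    have h := map_mul χ 1 x
    rw [one_mul] at h
    exact mul_right_cancel₀ hx (by rw [one_mul]; exact h.symm)
  refine no_character α h1 hmul ι hcomm ?_
    { toFun := χ
      map_one' := hχ1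
      map_mul' := map_mul χ
      map_zero' := map_zero χ
      map_add' := map_add χ
      commutes' := fun r => by
        rw [Algebra.algebraMap_eq_smul_one, map_smul, hχ1]
        simp
      map_star' := map_star χ }
  intro ψ
  have h := DFunLike.congr_fun (hD ψ.toNonUnitalStarAlgHom) 1
  simp at h

end main

end Vale.Agent.P095.NoChar
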