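import Vale.Agent.P095.Elem.StableNoChar
import Vale.Agent.P095.NU.Spec

/-!
# P095, P101: a separable algebra which is the tensor limit along the system

The limit `L` of the stages `Z_{p_m,q_m}` is the target of compatible dense maps of the stages, so
its central sequences have no characters; hence `L` is the tensor limit of the stages with values
in `L`, that is `Z ≅ Z ⊗ Z`. So the hypotheses of the absorption theorems can be met.
-/

namespace Vale.Agent.P095.Witness

open VAgent.P101 Vale.Agent.P101.JS Vale.Agent.P095.JSCentral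
open Filter TopologicalSpace BoundedContinuousFunction
open scoped ComplexOrder CStarAlgebra Topology BoundedContinuousFunction

noncomputable section

universe u v

variable {A : Type u} [CStarAlgebra A] [PartialOrder A] [StarOrderedRing A]
  {R : Type v} [CStarAlgebra R]

theorem exists_stage {φ : ∀ m, Blk A (P m) (Q m) →⋆ₐ[ℂ] R}
    (hc : ∀ m d F, φ (m + d) (connTo A m d F) = φ m F)
    (hd : ∀ (x : R) (ε : ℝ), 0 < ε → ∃ m F, ‖x - φ m F‖ < ε) (T : Finset R) {ε : ℝ} (hε : 0 < ε) :
    ∃ m, ∀ a ∈ T, ∃ F, ‖a - φ m F‖ < ε := by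
  classical
  choose m F hF using fun a => hd a ε hε
  refine ⟨T.sup m, fun a ha => ?_⟩
  obtain ⟨d, e⟩ := Nat.exists_eq_add_of_le (Finset.le_sup (f := m) ha)
  rw [e]
  exact ⟨connTo A (m a) d (F a), by rw [hc]; exact hF a⟩

/-- In the target of compatible dense stage maps finitely many elements almost commute with square zero elements covering
the unit. -/
theorem exists_cover {φ : ∀ m, Blk A (P m) (Q m) →⋆ₐ[ℂ] R}
    (hc : ∀ m d F, φ (m + d) (connTo A m d F) = φ m F)
    (hd : ∀ (x : R) (ε : ℝ), 0 < ε → ∃ m F, ‖x - φ m F‖ < ε) (T : Finset R) {ε : ℝ} (hε : 0 < ε) :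
    ∃ (x : Fin 6 → R) (w : Fin 3 → R),
      (∀ i, ‖x i‖ ≤ 1 ∧ x i * x i = 0 ∧ ∀ a ∈ T, ‖x i * a - a * x i‖ ≤ ε) ∧
      (∀ i, ‖w i‖ ≤ 1 ∧ ∀ a ∈ T, ‖w i * a - a * w i‖ ≤ ε) ∧
      ∑ i, (star (x i) * x i + x i * star (x i)) = 1 + ∑ i, star (w i) * w i := by
  classical
  obtain ⟨m, hm⟩ := exists_stage hc hd T (ε := ε / 8) (by positivity)
  choose! F hF using hm
  choose L c g hg using fun a => density A (P m) (Q m) (F a) (ε / 8) (by positivity)
  let S : ℝ := ∑ a ∈ T, ∑ i, ‖const A (P m) (Q m) (c a i)‖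
  have hS : 0 ≤ S := Finset.sum_nonneg fun a _ => Finset.sum_nonneg fun i _ => norm_nonneg _
  obtain ⟨d, q, z, hq, hz, hs⟩ := exists_central m
    (T.biUnion fun a => Finset.univ.image (g a)) (ε := ε / (2 * (S + 1))) (by positivity)
  let j : Blk ℂ (P (m + d)) (Q (m + d)) →⋆ₐ[ℂ] R :=
    (φ (m + d)).comp (scBlk A (P (m + d)) (Q (m + d)))
  have main : ∀ y : Blk ℂ (P (m + d)) (Q (m + d)), ‖y‖ ≤ 1 →
      (∀ e ∈ T.biUnion (fun a => Finset.univ.image (g a)),
        ‖y * connTo ℂ m d e - connTo ℂ m d e * y‖ ≤ ε / (2 * (S + 1))) →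
      ‖j y‖ ≤ 1 ∧ ∀ a ∈ T, ‖j y * a - a * j y‖ ≤ ε := by
    intro y hy he
    have hj : ‖j y‖ ≤ 1 := (NonUnitalStarAlgHom.norm_apply_le j y).trans hy
    refine ⟨hj, fun a ha => ?_⟩
    let b : Blk A (P m) (Q m) :=
      ∑ i, const A (P m) (Q m) (c a i) * scBlk A (P m) (Q m) (g a i)
    have hab : ‖a - φ m b‖ ≤ ε / 4 := by
      have e : a - φ m b = (a - φ m (F a)) + φ m (F a - b) := by rw [map_sub]; abel
      rw [e]
      refine (norm_add_le _ _).trans ?_
      have h1 := hF a ha
      have h2 := (NonUnitalStarAlgHom.norm_apply_le (φ m) (F a - b)).trans (hg a)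
      linarith
    refine (comm_near hj hab (r := ε / 2) ?_).trans (by linarith)
    have eb : φ m b = φ (m + d) (∑ i, const A (P (m + d)) (Q (m + d)) (c a i) *
        scBlk A (P (m + d)) (Q (m + d)) (connTo ℂ m d (g a i))) := by
      rw [← hc m d b, connTo_sum]
    rw [eb, show j y = φ (m + d) (scBlk A (P (m + d)) (Q (m + d)) y) from rfl,
      ← map_mul (φ (m + d)), ← map_mul (φ (m + d)), ← map_sub (φ (m + d))]
    refine (NonUnitalStarAlgHom.norm_apply_le (φ (m + d)) _).trans ?_
    refine (comm_sum_le _ _ _ (fun i => commute_const_scBlk (c a i) y)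
      (η := ε / (2 * (S + 1))) fun i => ?_).trans ?_
    · rw [← map_mul, ← map_mul, ← map_sub]
      exact (NonUnitalStarAlgHom.norm_apply_le _ _).trans (he _ (Finset.mem_biUnion.2
        ⟨a, ha, Finset.mem_image_of_mem _ (Finset.mem_univ i)⟩))
    · have h1 : ∀ i, ‖const A (P (m + d)) (Q (m + d)) (c a i)‖ ≤
          ‖const A (P m) (Q m) (c a i)‖ := fun i => by
        rw [← connTo_const A m (c a i) d]
        exact NonUnitalStarAlgHom.norm_apply_le _ _
      have h2 : ∑ i, ‖const A (P (m + d)) (Q (m + d)) (c a i)‖ ≤ S :=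
        (Finset.sum_le_sum fun i _ => h1 i).trans (Finset.single_le_sum
          (f := fun a => ∑ i, ‖const A (P m) (Q m) (c a i)‖)
          (fun a _ => Finset.sum_nonneg fun i _ => norm_nonneg _) ha)
      refine (mul_le_mul_of_nonneg_right h2 (by positivity)).trans ?_
      rw [← mul_div_assoc, div_le_div_iff₀ (by positivity) two_pos]
      nlinarith
  refine ⟨fun i => j (q i), fun i => j (z i), fun i => ?_,
    fun i => main _ (hz i).1 (hz i).2, ?_⟩
  · obtain ⟨h1, h2⟩ := main _ (hq i).1 (hq i).2.2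
    exact ⟨h1, by rw [← map_mul, (hq i).2.1, map_zero], h2⟩
  · have := congrArg j hs
    simpa only [map_sum, map_add, map_mul, map_star, map_one] using this

/-- The central sequences of a separable target of compatible dense stage maps have no characters. -/
theorem noCharacters_of_maps [SeparableSpace R] {φ : ∀ m, Blk A (P m) (Q m) →⋆ₐ[ℂ] R}
    (hc : ∀ m d F, φ (m + d) (connTo A m d F) = φ m F)
    (hd : ∀ (x : R) (ε : ℝ), 0 < ε → ∃ m F, ‖x - φ m F‖ < ε)
    (ω : Ultrafilter ℕ) (hω : (ω : Filter ℕ) ≤ cofinite) :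
    Vale.Agent.P101.NoCharacters (CentralSeq R ω) := by
  classical
  let a := TopologicalSpace.denseSeq R
  choose x w hx hw hs using fun n : ℕ =>
    exists_cover hc hd ((Finset.range (n + 1)).image a) (ε := 1 / (n + 1)) (by positivity)
  have mem : ∀ f : ℕ →ᵇ R, ‖f‖ ≤ 1 → (∀ n : ℕ, ∀ b ∈ (Finset.range (n + 1)).image a,
      ‖f n * b - b * f n‖ ≤ 1 / (n + 1)) → (UPow.mk f : UPow R ω) ∈ CentralSeq R ω := by
    intro f _ hf
    refine mem_centralSeq.2 fun b => ?_
    have hcl : IsClosed {b : R | Commute (UPow.const b) (UPow.mk f : UPow R ω)} :=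
      isClosed_eq ((continuous_mul_const (UPow.mk f : UPow R ω)).comp UPow.continuous_const')
        ((continuous_const_mul (UPow.mk f : UPow R ω)).comp UPow.continuous_const')
    refine hcl.closure_subset_iff.2 ?_ ((TopologicalSpace.denseRange_denseSeq R) b)
    intro b hb
    obtain ⟨l, rfl⟩ := hb
    show UPow.mk _ * UPow.mk f = UPow.mk f * UPow.mk _
    rw [← map_mul, ← map_mul, UPow.mk_eq_mk, mem_nullIdeal]
    have h0 : Tendsto (fun n : ℕ => (1 : ℝ) / (n + 1)) atTop (𝓝 0) :=
      tendsto_one_div_add_atTop_nhds_zero_nat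
    refine squeeze_zero' (Eventually.of_forall fun n => norm_nonneg _) ?_
      (h0.mono_left (hω.trans_eq Nat.cofinite_eq_atTop))
    filter_upwards [(hω.trans_eq Nat.cofinite_eq_atTop) (eventually_ge_atTop l)] with n hn
    simp only [BoundedContinuousFunction.sub_apply, BoundedContinuousFunction.mul_apply,
      BoundedContinuousFunction.const_apply]
    rw [norm_sub_rev]
    exact hf n _ (Finset.mem_image_of_mem a (Finset.mem_range.2 (by simpa using Nat.lt_succ_of_le hn)))
  let X : Fin 6 → ℕ →ᵇ R := fun i =>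
    ofNormedAddCommGroupDiscrete (fun n => x n i) 1 fun n => (hx n i).1
  let W : Fin 3 → ℕ →ᵇ R := fun i =>
    ofNormedAddCommGroupDiscrete (fun n => w n i) 1 fun n => (hw n i).1
  let Xc : Fin 6 → CentralSeq R ω := fun i => ⟨UPow.mkHom (X i),
    mem (X i) ((norm_le zero_le_one).2 fun n => (hx n i).1) fun n => (hx n i).2.2⟩
  let Wc : Fin 3 → CentralSeq R ω := fun i => ⟨UPow.mkHom (W i),
    mem (W i) ((norm_le zero_le_one).2 fun n => (hw n i).1) fun n => (hw n i).2⟩
  have hsq : ∀ i, Xc i * Xc i = 0 := fun i => Subtype.ext (by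
    show UPow.mkHom (X i) * UPow.mkHom (X i) = 0
    rw [← map_mul, show X i * X i = 0 from BoundedContinuousFunction.ext fun n => (hx n i).2.1,
      map_zero])
  have hsum : ∑ i, (star (Xc i) * Xc i + Xc i * star (Xc i)) =
      1 + ∑ i, star (Wc i) * Wc i := Subtype.ext (by
    have e : ∑ i, (star (X i) * X i + X i * star (X i)) = 1 + ∑ i, star (W i) * W i :=
      BoundedContinuousFunction.ext fun n => by simpa [X, W] using hs n
    have := congrArg (UPow.mkHom (A := R) (ω := ω)) e
    simpa only [map_sum, map_add, map_mul, map_star, map_one, AddSubmonoidClass.coe_finset_sum,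
      AddMemClass.coe_add, MulMemClass.coe_mul, StarMemClass.coe_star, OneMemClass.coe_one]
      using this)
  intro χ
  have hχ : ∀ i, χ (Xc i) = 0 := fun i =>
    mul_self_eq_zero.1 (by rw [← map_mul, hsq i, map_zero])
  have h1 := congrArg χ hsum
  simp only [map_sum, map_add, map_mul, map_star, hχ, mul_zero, star_zero, zero_mul, add_zero,
    Finset.sum_const_zero] at h1
  have hi : χ 1 * χ 1 = χ 1 := by rw [← map_mul, one_mul]
  rcases eq_or_ne (χ 1) 0 with h0 | h0
  · refine DFunLike.ext _ _ fun y => ?_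
    rw [← mul_one y, map_mul, h0, mul_zero]
    rfl
  · exfalso
    rw [mul_right_cancel₀ h0 (hi.trans (one_mul _).symm)] at h1
    have h2 := congrArg Complex.re h1
    simp only [Complex.zero_re, Complex.add_re, Complex.one_re, Complex.re_sum,
      Complex.star_def, Complex.mul_re, Complex.conj_re, Complex.conj_im] at h2
    have h3 : (0 : ℝ) ≤ ∑ i, ((χ (Wc i)).re * (χ (Wc i)).re -
        -(χ (Wc i)).im * (χ (Wc i)).im) :=
      Finset.sum_nonneg fun i _ => by nlinarith [sq_nonneg (χ (Wc i)).re, sq_nonneg (χ (Wc i)).im]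
    linarith

/-- The limit of the stages, that is the Jiang–Su algebra, has no characters in its central
sequence algebra and is the tensor limit of the stages with values in itself. -/
theorem exists_tensorLimit :
    ∃ (L : Type) (_ : CStarAlgebra L), Nontrivial L ∧ SeparableSpace L ∧
      (∀ ω : Ultrafilter ℕ, (ω : Filter ℕ) ≤ cofinite →
        Vale.Agent.P101.NoCharacters (CentralSeq L ω)) ∧
      IsTensorLimit L frame := by
  haveI : Nontrivial (ZLim ℂ) := (toZLim_injective (A := ℂ)).nontrivial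
  have hc : ∀ m d (F : Blk ℂ (P m) (Q m)),
      incl (fun m => conn ℂ m) (m + d) (connTo ℂ m d F) = incl (fun m => conn ℂ m) m F :=
    fun m d F => incl_connTo m F d
  have hd : ∀ (x : ZLim ℂ) (ε : ℝ), 0 < ε →
      ∃ m F, ‖x - incl (fun m => conn ℂ m) m F‖ < ε :=
    fun x ε hε => exists_incl_near (fun m => conn ℂ m) x hε
  have hno : ∀ ω : Ultrafilter ℕ, (ω : Filter ℕ) ≤ cofinite →
      Vale.Agent.P101.NoCharacters (CentralSeq (ZLim ℂ) ω) :=
    fun ω hω => noCharacters_of_maps hc hd ω hω
  exact ⟨ZLim ℂ, inferInstance, inferInstance, inferInstance, hno,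
    tensorLimit_of_noCharacters (ZLim ℂ) (Filter.hyperfilter ℕ) Filter.hyperfilter_le_cofinite
      (hno _ Filter.hyperfilter_le_cofinite)⟩

omit [PartialOrder A] [StarOrderedRing A] in
/-- For an algebra with a unit the connecting map is given entry by entry. -/
theorem stepMap_eq_nu (m : ℕ) (W : Frame m) (f : Stage A m) :
    NU.stepMap m W f = Vale.Agent.P101.JS.stepMap m W f := by
  funext t i j
  simp only [NU.stepMap, Vale.Agent.P101.JS.stepMap, Matrix.mul_apply, Matrix.map_apply,
    Matrix.conjTranspose_apply, Matrix.blockDiagonal_apply]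
  simp only [Finset.sum_mul, ← algebraMap_star_comm, mul_ite, mul_zero, ite_mul, zero_mul]
  conv_rhs => rw [Fintype.sum_prod_type_right]
  refine Finset.sum_congr rfl fun k _ => ?_
  rw [Finset.sum_comm]
  refine Finset.sum_congr rfl fun y _ => ?_
  conv_rhs => rw [Fintype.sum_prod_type]
  refine Finset.sum_congr rfl fun x _ => ?_
  rw [Finset.sum_ite_eq', if_pos (Finset.mem_univ k), ← Algebra.commutes (star (W t j (y, k))),
    ← mul_assoc, ← map_mul, ← Algebra.smul_def, mul_comm]

omit [PartialOrder A] [StarOrderedRing A] in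
/-- A unital tensor limit is a tensor limit in the non-unital sense. -/
theorem nu_of_tensorLimit {W : ∀ m, Frame m} (h : IsTensorLimit A W) : NU.IsTensorLimit A W := by
  obtain ⟨hW, ι, -, hops, hstep, hd⟩ := h
  exact ⟨fun m f hf => by rw [stepMap_eq_nu]; exact hW m f hf, ι, hops,
    fun m f hf => by rw [stepMap_eq_nu]; exact hstep m f hf, hd⟩

/-- A nontrivial separable algebra satisfies the hypothesis of the absorption theorem. -/
theorem exists_nu_tensorLimit :
    ∃ (L : Type) (_ : NonUnitalCStarAlgebra L), Nontrivial L ∧ SeparableSpace L ∧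
      NU.IsTensorLimit L frame := by
  obtain ⟨L, hL, h1, h2, -, h3⟩ := exists_tensorLimit
  exact ⟨L, inferInstance, h1, h2, nu_of_tensorLimit h3⟩

end

end Vale.Agent.P095.Witness
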